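import Vale.Agent.P188.H329.ACE
import Vale.Agent.P188.H329.PackQ

/-!
# P188, route B (everywhere sublinear): the geometric interface

`S` is the real model `N_R·Γ`, `E = N_R = ker η` (as a group with Haar measure `ν`),
`inc : E →* S` the inclusion, `l` a word length of `S`, `θ : S → V` the heights, `b j` the
(smallest) generator weight of the ray `j`, `N ρ ⊆ E` the natural box: the letters `X a` of the ray
`j` have size `exp (τ a * ρ (some j))`, the neutral letters have size `exp (ρ none)`;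
`U (some i) μ r` elements of the group generated by the letters of the ray `i` (size `exp (τ μ)`) and
the neutral letters (size `exp r`) which lie in the exponential radical: they merge under `t i`;
`U none μ r` the neutral ones; `Y0 r` the exponentials of neutral vectors of size `C exp (C r)`;
`Ca` the section `τ (Z^k)`; `D j` the crossed homomorphism of weight `b j`.

All constants are collected in one constant `C` and one sublinear error function `er`.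
NEUTRAL ELEMENTS ARE NOT DISTORTED: a neutral element of size `exp r` has length up to `exp (C r)`.
-/

set_option linter.all false

namespace Vale.P188.H532

open MeasureTheory Set
open Vale.Agent.P188.H329 (Rel InP prS)

/-- shift all the extents by the same number -/
def sh {ι : Type} (ρ : Option ι → ℝ) (r : ℝ) : Option ι → ℝ := fun j => ρ j + r

/-- shift the ray extents by `r` and the neutral extent by `r'` -/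
def sh2 {ι : Type} (ρ : Option ι → ℝ) (r r' : ℝ) : Option ι → ℝ
  | none => ρ none + r'
  | some j => ρ (some j) + r

/-- ray extents `r`, neutral extent `r'` -/
def rn {ι : Type} (r r' : ℝ) : Option ι → ℝ
  | none => r'
  | some _ => r

/-- extend the ray `o` (or the neutral extent, `o = none`) by `l`, shrink all the other rays by `c`,
keep the neutral extent (if `o ≠ none`) -/
def bump {ι : Type} [DecidableEq ι] (ρ : Option ι → ℝ) (o : Option ι) (l c : ℝ) : Option ι → ℝ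
  | none => if o = none then ρ none + l else ρ none
  | some j => if o = some j then ρ (some j) + l else ρ (some j) - c

/-- extents of the pure elements of the ray `o` -/
def exto {ι : Type} [DecidableEq ι] (o : Option ι) (μ r : ℝ) : Option ι → ℝ
  | none => if o = none then μ else r
  | some j => if o = some j then μ else 0

/-- the functional of the neutral letters is `0` -/
def ob {ι V : Type} [AddCommGroup V] [Module ℝ V] (b : ι → V →ₗ[ℝ] ℝ) : Option ι → V →ₗ[ℝ] ℝ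
  | none => 0
  | some j => b j

/-- the letters at extents `ρ` : `x ↦ s a (exp (τ a * ρ (ray a)) * x)` -/
noncomputable def ls {E L ι : Type} (ray : L → Option ι) (τ : L → ℝ) (s : L → ℝ → E)
    (ρ : Option ι → ℝ) (a : L) (x : ℝ) : E := s a (Real.exp (τ a * ρ (ray a)) * x)

structure Geo (S E V ι L : Type) [Group S] [Group E] [MeasurableSpace E] [NormedAddCommGroup V]
    [NormedSpace ℝ V] [Fintype ι] [DecidableEq ι] [Fintype L] where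
  /-- the universal constant -/
  C : ℝ
  one_le_C : 1 ≤ C
  /-- sublinear error -/
  er : ℝ → ℝ
  er_ge : ∀ r, C ≤ er r
  er_mono : Monotone er
  er_sub : ∀ ε : ℝ, 0 < ε → ∃ K : ℝ, ∀ r : ℝ, 0 ≤ r → er r ≤ ε * r + K
  /-- inclusion of `N_R` -/
  inc : E →* S
  inc_inj : Function.Injective inc
  /-- length on `S` -/
  l : S → ℝ
  l_nonneg : ∀ g, 0 ≤ l g
  l_one : l 1 = 0
  l_mul : ∀ g h, l (g * h) ≤ l g + l h
  l_inv : ∀ g, l g⁻¹ = l g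
  l_path : ∀ g, ∃ p : ℕ → S, p 0 = 1 ∧ p ⌈l g⌉₊ = g ∧ ∀ i, l ((p i)⁻¹ * p (i + 1)) ≤ C
  /-- heights -/
  θ : S → V
  θ_mul : ∀ g h, θ (g * h) = θ g + θ h
  θ_inc : ∀ e, θ (inc e) = 0
  θ_le : ∀ g, ‖θ g‖ ≤ C * l g
  /-- rays -/
  b : ι → V →ₗ[ℝ] ℝ
  b_le : ∀ j v, |b j v| ≤ C * ‖v‖
  b_span : ∀ (v : V) (r : ℝ), 0 ≤ r → (∀ j, |b j v| ≤ r) → ‖v‖ ≤ C * r
  w : ι → ℝ
  w_pos : ∀ j, 0 < w j
  w_sum : ∀ v, ∑ j, w j * b j v = 0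
  /-- directions -/
  t : ι → S
  t_le : ∀ j, l (t j) ≤ C
  t_pos : ∀ j, 0 < b j (θ (t j))
  /-- conjugation of `E` by `S` -/
  cj : S →* MulAut E
  inc_cj : ∀ g e, inc (cj g e) = g * inc e * g⁻¹
  /-- Haar measure -/
  ν : Measure E
  ν_mm : MeasurableMul₂ E
  ν_mi : MeasurableInv E
  ν_left : ν.IsMulLeftInvariant
  ν_right : ν.IsMulRightInvariant
  ν_inv : ν.IsInvInvariant
  ν_sf : SigmaFinite ν
  cj_mp : ∀ g, MeasurePreserving (cj g) ν ν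
  /-- natural boxes -/
  N : (Option ι → ℝ) → Set E
  N_meas : ∀ ρ, MeasurableSet (N ρ)
  N_mono : ∀ ρ ρ' : Option ι → ℝ, (∀ j, ρ j ≤ ρ' j) → N ρ ⊆ N ρ'
  N_one : ∀ ρ : Option ι → ℝ, (∀ j, 0 ≤ ρ j) → (1 : E) ∈ N ρ
  N_mul : ∀ ρ : Option ι → ℝ, (∀ j, 0 ≤ ρ j) → ∀ x ∈ N ρ, ∀ y ∈ N ρ, x * y ∈ N (sh ρ C)
  N_inv : ∀ ρ : Option ι → ℝ, (∀ j, 0 ≤ ρ j) → ∀ x ∈ N ρ, x⁻¹ ∈ N (sh ρ C)
  ν_N_pos : ∀ ρ : Option ι → ℝ, (∀ j, 0 ≤ ρ j) → 0 < ν (N ρ)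
  ν_N_top : ∀ ρ : Option ι → ℝ, ν (N ρ) < ⊤
  ν_dbl : ∀ ρ : Option ι → ℝ, (∀ j, 0 ≤ ρ j) → ∀ r : ℝ, 0 ≤ r →
    ν (N (sh ρ r)) ≤ ENNReal.ofReal (Real.exp (C * (1 + r))) * ν (N ρ)
  /-- comparison of boxes with the length -/
  N_bdd : ∀ R : ℝ, ∃ B : ℝ, ∀ ρ : Option ι → ℝ, (∀ j, ρ j ≤ R) → ∀ n ∈ N ρ, l (inc n) ≤ B
  len_N : ∀ (e : E) (r : ℝ), l (inc e) ≤ r → e ∈ N (rn (C * (r + 1)) (er r))
  /-- conjugates of boxes by short elements -/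
  cj_N : ∀ (g : S) (r : ℝ), l g ≤ r → ∀ ρ : Option ι → ℝ, (∀ j, 0 ≤ ρ j) → ∀ n ∈ N ρ,
    cj g n ∈ N (sh2 ρ (C * (r + 1)) (er r))
  /-- the section of `S → S / N_R = Z^k` -/
  Ca : Set S
  Ca_len : ∀ κ ∈ Ca, l κ ≤ C * (‖θ κ‖ + 1)
  Ca_fin : ∀ r : ℝ, 0 ≤ r → ∃ 𝒦 : Finset S, (𝒦.card : ℝ) ≤ Real.exp (er r) ∧
    (∀ κ ∈ 𝒦, κ ∈ Ca) ∧ ∀ κ ∈ Ca, ‖θ κ‖ ≤ r → κ ∈ 𝒦
  cj_Ca : ∀ κ ∈ Ca, ∀ ρ ρ' : Option ι → ℝ, (∀ j, 0 ≤ ρ j) → (∀ j, 0 ≤ ρ' j) →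
    (∀ j, ρ j + ob b j (θ κ) + er ‖θ κ‖ ≤ ρ' j) → ∀ n ∈ N ρ, cj κ n ∈ N ρ'
  /-- path containment -/
  PC : ∀ A : ℝ, ∃ K : ℝ, 0 ≤ K ∧ ∀ (m : ℕ) (w : ℕ → S) (ρ : Option ι → ℝ), (∀ j, 0 ≤ ρ j) →
    (∀ i < m, l ((w i)⁻¹ * w (i + 1)) ≤ A) →
    (∀ i ≤ m, ∀ j : ι, b j (θ ((w 0)⁻¹ * w i)) ≤ ρ (some j)) →
    ∃ n ∈ N (sh ρ (K * (1 + Real.log (1 + m)))), ∃ κ ∈ Ca, (w 0)⁻¹ * w m = inc n * κ
  /-- letters -/
  ray : L → Option ι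
  τ : L → ℝ
  τ_pos : ∀ a, 0 < τ a
  s : L → ℝ → E
  s_meas : ∀ a, Measurable (s a)
  s_zero : ∀ a, s a 0 = 1
  cl : ℕ
  rel : Rel L cl s
  N_ls : ∀ ρ : Option ι → ℝ, (∀ j, 0 ≤ ρ j) → ∀ a x, |x| ≤ 1 → ls ray τ s ρ a x ∈ N ρ
  /-- bounded generation of the boxes by letters -/
  cg : ℕ
  N_gen : ∀ ρ : Option ι → ℝ, (∀ j, 0 ≤ ρ j) → ∀ y ∈ N ρ, InP (ls ray τ s ρ) cg C 1 y
  /-- conjugates of small ray letters by elements of a larger box -/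
  conj : ∀ (ρ : Option ι → ℝ) (lam : ℝ), 0 ≤ lam → (∀ j, 0 ≤ ρ j) →
    (∀ j : ι, C * (lam + 1) ≤ ρ (some j)) → ∀ g ∈ N (sh ρ lam), ∀ a x, ray a ≠ none → |x| ≤ 1 →
      g * ls ray τ s (sh ρ (-(C * (lam + 1)))) a x * g⁻¹ ∈ N ρ
  /-- elements of the ray `o`; they merge under `t i` if `o = some i` -/
  U : Option ι → ℝ → ℝ → Set E
  U_N : ∀ o μ r, 0 ≤ μ → 0 ≤ r → U o μ r ⊆ N (exto o μ r)
  U_ls : ∀ (ρ : Option ι → ℝ) (a : L) (x : ℝ), (∀ j, 0 ≤ ρ j) → ray a ≠ none → |x| ≤ 1 →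
    ls ray τ s ρ a x ∈ U (ray a) (ρ (ray a)) (ρ none)
  U_merge : ∀ i μ r, 0 ≤ μ → 0 ≤ r → ∀ x ∈ U (some i) μ r, ∀ m : ℕ,
    μ + C * r ≤ m * b i (θ (t i)) → l (((t i) ^ m)⁻¹ * inc x * (t i) ^ m) ≤ er m
  /-- neutral elements -/
  Y0 : ℝ → Set E
  Y_inv : ∀ r, ∀ y ∈ Y0 r, y⁻¹ ∈ Y0 r
  Y_mono : ∀ r r', r ≤ r' → Y0 r ⊆ Y0 r'
  Y_U : ∀ μ r, 0 ≤ μ → U none μ r ⊆ Y0 μ
  Y_ls : ∀ (ρ : Option ι → ℝ) (a : L) (x : ℝ), (∀ j, 0 ≤ ρ j) → ray a = none → |x| ≤ 1 →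
    ls ray τ s ρ a x ∈ Y0 (ρ none)
  Y_path : ∀ r : ℝ, 0 ≤ r → ∀ y ∈ Y0 r, ∃ (m : ℕ) (p : ℕ → E), (m : ℝ) ≤ Real.exp (C * (r + 1)) ∧
    p 0 = 1 ∧ p m = y ∧ (∀ i, p i ∈ Y0 r) ∧ ∀ i, l (inc ((p i)⁻¹ * p (i + 1))) ≤ C
  Y_net : ∀ r : ℝ, 0 ≤ r → ∃ F : Finset E, (F.card : ℝ) ≤ Real.exp (C * (r + 1)) ∧
    (∀ y ∈ F, y ∈ Y0 r) ∧ ∀ y ∈ Y0 r, ∃ y' ∈ F, l (inc (y'⁻¹ * y)) ≤ C
  /-- crossed homomorphisms -/
  χ : ι → S → ℂ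
  D : ι → S → ℂ
  χ_norm : ∀ j g, ‖χ j g‖ = Real.exp (b j (θ g))
  χ_mul : ∀ j g h, χ j (g * h) = χ j g * χ j h
  D_mul : ∀ j g h, D j (g * h) = D j g + χ j g * D j h
  χ_inc : ∀ j e, χ j (inc e) = 1
  D_le : ∀ j g, ‖D j g‖ ≤ C * Real.exp (C * l g)
  D_vol : ∀ (j : ι) (ρ : Option ι → ℝ), (∀ j, 0 ≤ ρ j) → ∀ (r : ℝ) (d : ℂ), 0 ≤ r →
    ν {n | n ∈ N ρ ∧ ‖D j (inc n) - d‖ ≤ Real.exp r} ≤
      ENNReal.ofReal (Real.exp (C - (ρ (some j) - r) / C)) * ν (N ρ)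
  /-- the window: `p j` is the value of `b j` at the facet `j` -/
  p : ι → ℝ
  δ0 : ℝ
  δ0_pos : 0 < δ0
  δ0_le : δ0 ≤ 1
  c1 : ℝ
  c1_pos : 0 < c1
  p_lb : ∀ j, c1 + δ0 ≤ p j
  p_ub : ∀ j, p j + δ0 ≤ C
  dir : ∀ i j, j ≠ i → ∀ (x : ℝ) (ρ : Option ι → ℝ), 0 ≤ x →
    (∀ j, |ρ (some j) - x * p j| ≤ δ0 * x) → ∀ m : ℕ,
    m * b i (θ (t i)) ≤ ρ (some i) + δ0 * x → m * b j (θ (t i)) ≤ ρ (some j) - c1 * x
  /-- packing numbers (logarithms) -/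
  H : Option ι → (Option ι → ℝ) → ℝ → ℝ
  H_sh : ∀ o (ρ ρ' : Option ι → ℝ) (l r : ℝ), (∀ j, 0 ≤ ρ j) → (∀ j, 0 ≤ ρ' j) → 0 ≤ l → 0 ≤ r →
    (∀ j, |ρ' j - ρ j| ≤ r) → H o ρ' l ≤ H o ρ l + C * (1 + r)
  H_grow : ∀ i (ρ : Option ι → ℝ) (l l' : ℝ), (∀ j, 0 ≤ ρ j) → 0 ≤ l' → l' ≤ l →
    H (some i) ρ l' + (l - l') / C - C ≤ H (some i) ρ l
  /-- in the windows the packing numbers depend on the extents of `i` and of the neutral letters only: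
  a pure element of a window box `N ρ'` lies in `N (sh ρ C)` for each window `ρ` with the same extents
  of `i` and of the neutral letters (the mixed brackets dominate) -/
  H_ext : ∀ (i : ι) (x : ℝ) (ρ ρ' : Option ι → ℝ) (l : ℝ),
    (∀ j, |ρ (some j) - x * p j| ≤ δ0 * x) → (∀ j, |ρ' (some j) - x * p j| ≤ δ0 * x) →
    0 ≤ ρ none → ρ none ≤ δ0 * x → ρ' none = ρ none → ρ' (some i) = ρ (some i) → 0 ≤ l →
    l ≤ δ0 * x → H (some i) ρ l ≤ H (some i) ρ' l + C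
  cov : ∀ (o : Option ι) (x : ℝ) (ρ : Option ι → ℝ) (l : ℝ),
    (∀ j, |ρ (some j) - x * p j| ≤ δ0 * x) → 0 ≤ ρ none → ρ none ≤ δ0 * x → 0 ≤ l → l ≤ δ0 * x →
    (∀ j : ι, C * (l + 1) ≤ ρ (some j)) →
    ∃ F : Finset E, (F.card : ℝ) ≤ Real.exp (H o ρ l + C) ∧
      ∀ y ∈ N (bump ρ o l (C * (l + 1))), ∃ z ∈ F, ∃ n ∈ N (sh ρ C), y = n * z
  sep : ∀ (o : Option ι) (ρ : Option ι → ℝ) (l C1 : ℝ), (∀ j, 0 ≤ ρ j) → 0 ≤ l → 0 ≤ C1 →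
    ∃ X : Finset E, (∀ x ∈ X, x ∈ U o (ρ o + l) (ρ none)) ∧
      Real.exp (H o ρ l - C * (1 + C1)) ≤ X.card ∧
      ∀ x ∈ X, ∀ y ∈ X, x ≠ y → ∀ n ∈ N (sh ρ C1), ∀ n' ∈ N (sh ρ C1), n * x ≠ n' * y

end Vale.P188.H532
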