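import Vale.Agent.P188.H532.Geo

/-!
# P188, route B: the hypothesis INPUT and the goal (ES)
-/

set_option linter.all false

namespace Vale.P188.H532

open MeasureTheory Set

variable {S E V ι L : Type} [Group S] [Group E] [MeasurableSpace E] [NormedAddCommGroup V]
    [NormedSpace ℝ V] [Fintype ι] [DecidableEq ι] [Fintype L]

/-- `Ψ` is a quasi-isometric embedding with constant `Λ` (`S → S`), measurable along the
`N_R`-slices (with countably many values) -/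
structure QIe (G : Geo S E V ι L) (Λ : ℝ) (Ψ : S → S) : Prop where
  one_le : 1 ≤ Λ
  lip : ∀ z g, G.l ((Ψ z)⁻¹ * Ψ (z * g)) ≤ Λ * (G.l g + 1)
  low : ∀ z g, G.l g ≤ Λ * (G.l ((Ψ z)⁻¹ * Ψ (z * g)) + 1)
  meas : ∀ (g h : S) (P : Set S), MeasurableSet {e : E | Ψ (g * G.inc e * h) ∈ P}

/-- the height defect -/
def Wd (G : Geo S E V ι L) (Ψ : S → S) (z : S) : V := G.θ (Ψ z) - G.θ z

/-- admissible extents at scale `x`, with neutral extent `d x` -/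
def Adm (G : Geo S E V ι L) (d x : ℝ) (ρ : Option ι → ℝ) : Prop :=
  ρ none = d * x ∧ ∀ j, |ρ (some j) - x * G.p j| ≤ G.δ0 * x

/-- `c` is a constant of the window `ρ` at the location `g`, with error `ω`, exceptional proportion
`ε`: for the slices `N(ρ) h` with `l h ≤ r` and with `h = (t i)^m` in the window -/
def IsC (G : Geo S E V ι L) (Ψ : S → S) (r ω ε : ℝ) (ρ : Option ι → ℝ) (g : S) (c : V) : Prop :=
  ∀ h : S, (G.l h ≤ r ∨ ∃ (i : ι) (m : ℕ), h = G.t i ^ m ∧ m * G.b i (G.θ (G.t i)) ≤ ρ (some i)) →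
    G.ν {n | n ∈ G.N ρ ∧ ω < ‖Wd G Ψ (g * G.inc n * h) - c‖} ≤ ENNReal.ofReal ε * G.ν (G.N ρ)

/-- neutral flatness of the window `ρ` -/
def NFl (G : Geo S E V ι L) (Ψ : S → S) (ω ε : ℝ) (ρ : Option ι → ℝ) (g : S) : Prop :=
  ∀ y ∈ G.Y0 (ρ none),
    G.ν {n | n ∈ G.N ρ ∧ ω < ‖Wd G Ψ (g * G.inc n * G.inc y) - Wd G Ψ (g * G.inc n)‖} ≤
      ENNReal.ofReal (ε * Real.exp (-(G.C * (ρ none + 1)))) * G.ν (G.N ρ)

/-- INPUT: all the maps of the family are flat at all the large scales, at all locations, with error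
`η x` and exceptional proportion `η`. -/
def Input (G : Geo S E V ι L) (𝓕 : Set (S → S)) : Prop :=
  ∃ c7 : ℝ, 0 < c7 ∧ ∀ η : ℝ, 0 < η → ∃ dm : ℝ, 0 < dm ∧ ∀ d : ℝ, 0 < d → d ≤ dm →
    ∃ x0 : ℝ, ∀ Ψ ∈ 𝓕, ∀ x : ℝ, x0 ≤ x → ∀ ρ : Option ι → ℝ, Adm G d x ρ → ∀ g : S,
      (∃ c : V, IsC G Ψ (c7 * x) (η * x) η ρ g c) ∧ NFl G Ψ (η * x) η ρ g

/-- (ES) -/
def ES (G : Geo S E V ι L) (𝓕 : Set (S → S)) : Prop :=
  ∀ η : ℝ, 0 < η → ∃ K : ℝ, ∀ Ψ ∈ 𝓕, ∀ g h : S, ‖Wd G Ψ (g * h) - Wd G Ψ g‖ ≤ η * G.l h + K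

end Vale.P188.H532
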