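import Vale.Agent.P188.H532.Good

/-!
# P188, route B: links to a larger window, for most locations
-/

set_option linter.all false

namespace Vale.P188.H532

open MeasureTheory Set

variable {S E V ι L : Type} [Group S] [Group E] [MeasurableSpace E] [NormedAddCommGroup V]
    [NormedSpace ℝ V] [Fintype ι] [DecidableEq ι] [Fintype L]

theorem bump_self {ρ : Option ι → ℝ} {o : Option ι} {l c : ℝ} : bump ρ o l c o = ρ o + l := by
  cases o <;> simp [bump]

theorem bump_none {ρ : Option ι → ℝ} {o : Option ι} {l c : ℝ} (h : o ≠ none) :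
    bump ρ o l c none = ρ none := by
  simp [bump, h]

theorem bump_some {ρ : Option ι → ℝ} {o : Option ι} {l c : ℝ} {j : ι} (h : o ≠ some j) :
    bump ρ o l c (some j) = ρ (some j) - c := by
  simp [bump, h]

/-- relation between the big window `P` and the small one `ρ` -/
structure Rel2 (G : Geo S E V ι L) (o : Option ι) (P ρ : Option ι → ℝ) (l : ℝ) : Prop where
  self : ρ o = P o
  hnone : ρ none = P none
  le : ∀ j : ι, o ≠ some j → ρ (some j) + G.C * (l + 1) ≤ P (some j)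
  nonneg : ∀ j, 0 ≤ ρ j
  l_nonneg : 0 ≤ l

variable {G : Geo S E V ι L}

theorem N_sh_eq {ρ : Option ι → ℝ} {a b : ℝ} {x : E} (h : x ∈ G.N (sh ρ a)) (hab : a = b) :
    x ∈ G.N (sh ρ b) := hab ▸ h

theorem Rel2.mono {o : Option ι} {P ρ : Option ι → ℝ} {l l' : ℝ} (h : Rel2 G o P ρ l) (h0 : 0 ≤ l')
    (hl : l' ≤ l) : Rel2 G o P ρ l' :=
  ⟨h.self, h.hnone, fun j hj => by
    have := h.le j hj
    have h1 := mul_le_mul_of_nonneg_left hl G.C_nonneg
    nlinarith, h.nonneg, h0⟩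

theorem Rel2.le' {o : Option ι} {P ρ : Option ι → ℝ} {l : ℝ} (h : Rel2 G o P ρ l) (j : Option ι) :
    ρ j ≤ P j := by
  rcases j with _ | j
  · exact h.hnone.le
  · by_cases ho : o = some j
    · rw [← ho]
      exact h.self.le
    · have := h.le j ho
      have h1 : 0 ≤ G.C * (l + 1) := mul_nonneg G.C_nonneg (by linarith [h.l_nonneg])
      linarith

theorem Rel2.up_ge {o : Option ι} {P ρ : Option ι → ℝ} {l : ℝ} (h : Rel2 G o P ρ l)
    (j : Option ι) : ρ j ≤ bump ρ o l 0 j := by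
  have hl := h.l_nonneg
  rcases j with _ | j
  · by_cases ho : o = none
    · subst ho
      rw [bump_self]; linarith
    · rw [bump_none ho]
  · by_cases ho : o = some j
    · subst ho
      rw [bump_self]; linarith
    · rw [bump_some ho]; linarith

theorem Rel2.exto_le {o : Option ι} {P ρ : Option ι → ℝ} {l : ℝ} (h : Rel2 G o P ρ l)
    (j : Option ι) : exto o (P o + l) (P none) j ≤ bump ρ o l 0 j := by
  rcases j with _ | j
  · by_cases ho : o = none
    · subst ho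
      rw [bump_self]; simp [exto, h.self]
    · rw [bump_none ho]; simp [exto, ho, h.hnone]
  · by_cases ho : o = some j
    · subst ho
      rw [bump_self]; simp [exto, h.self]
    · rw [bump_some ho]; simp [exto, ho, h.nonneg (some j)]

theorem Rel2.bump_le {o : Option ι} {P ρ : Option ι → ℝ} {l : ℝ} (h : Rel2 G o P ρ l) (s : ℝ)
    (j : Option ι) : sh (bump ρ o l 0) s j ≤ bump (sh P s) o l (G.C * (l + 1)) j := by
  rcases j with _ | j
  · by_cases ho : o = none
    · subst ho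
      rw [bump_self]
      show bump ρ none l 0 none + s ≤ _
      rw [bump_self, h.self]
      show _ ≤ P none + s + l
      linarith
    · rw [bump_none ho]
      show bump ρ o l 0 none + s ≤ _
      rw [bump_none ho, h.hnone]
      exact le_rfl
  · by_cases ho : o = some j
    · subst ho
      rw [bump_self]
      show bump ρ _ l 0 _ + s ≤ P _ + s + l
      rw [bump_self, h.self]
      linarith
    · rw [bump_some ho]
      show bump ρ _ l 0 _ + s ≤ P _ + s - _
      rw [bump_some ho]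
      linarith [h.le j ho]

/-- elements `n * y`, `n ∈ N ρ`, `y` in the ray group, are in the box of the large window -/
theorem Rel2.mul_mem {o : Option ι} {P ρ : Option ι → ℝ} {l : ℝ} (h : Rel2 G o P ρ l)
    (hP : 0 ≤ P o) (hP0 : 0 ≤ P none) {n y : E} (hn : n ∈ G.N ρ) (hy : y ∈ G.U o (P o + l) (P none)) :
    n * y ∈ G.N (sh (bump ρ o l 0) G.C) := by
  have h1 : n ∈ G.N (bump ρ o l 0) := G.N_mono _ _ h.up_ge hn
  have h2 : y ∈ G.N (bump ρ o l 0) :=
    G.N_mono _ _ h.exto_le (G.U_N o _ _ (by linarith [h.l_nonneg]) hP0 hy)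
  exact G.N_mul _ (fun j => (h.nonneg j).trans (h.up_ge j)) n h1 y h2

/-- the constant of `avg_links` -/
noncomputable def Geo.M4 (G : Geo S E V ι L) : ℝ :=
  G.C * (1 + 3 * G.C) + G.C + G.C * (1 + 5 * G.C) + G.C * (1 + G.C)

/-- **Volume of the set of translates** -/
theorem cover_vol {o : Option ι} {P ρ : Option ι → ℝ} {l x : ℝ} (h : Rel2 G o P ρ l)
    (hP : ∀ j, 0 ≤ P j) (hwin : ∀ j, |P (some j) + 3 * G.C - x * G.p j| ≤ G.δ0 * x)
    (hn : P none + 3 * G.C ≤ G.δ0 * x) (hl : l ≤ G.δ0 * x)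
    (hlP : ∀ j : ι, G.C * (l + 1) ≤ P (some j)) {X : Finset E}
    (hXU : ∀ y ∈ X, y ∈ G.U o (P o + l) (P none))
    (hXc : Real.exp (G.H o P l - G.C * (1 + G.C)) ≤ X.card) :
    ∃ Z' : Set E, MeasurableSet Z' ∧ G.ν Z' ≤ ENNReal.ofReal (Real.exp G.M4 * X.card) * G.ν (G.N P) ∧
      ∀ e, ∀ n ∈ G.N (sh (bump ρ o l 0) G.C), ∀ y ∈ X, e * n * y⁻¹ ∈ G.N (sh P G.C) → e ∈ Z' := by
  classical
  haveI := G.ν_mm
  haveI := G.ν_right
  have hC := G.C_pos
  have hup : ∀ j, 0 ≤ bump ρ o l 0 j := fun j => (h.nonneg j).trans (h.up_ge j)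
  obtain ⟨F, hF1, hF2⟩ := G.cov o x (sh P (3 * G.C)) l hwin
    (by simp only [sh]; linarith [hP none]) hn h.l_nonneg hl
    (fun j => by simp only [sh]; linarith [hlP j])
  refine ⟨⋃ z ∈ F, (fun e => e * z⁻¹) ⁻¹' G.N (sh P (5 * G.C)), ?_, ?_, ?_⟩
  · exact Finset.measurableSet_biUnion _ fun z _ => (measurable_mul_const _) (G.N_meas _)
  · refine (measure_biUnion_finset_le _ _).trans ?_
    have h1 : ∀ z ∈ F, G.ν ((fun e => e * z⁻¹) ⁻¹' G.N (sh P (5 * G.C))) ≤
        ENNReal.ofReal (Real.exp (G.C * (1 + 5 * G.C))) * G.ν (G.N P) := by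
      intro z _
      rw [measure_preimage_mul_right]
      exact G.ν_dbl P hP _ (by positivity)
    refine (Finset.sum_le_sum h1).trans ?_
    rw [Finset.sum_const, nsmul_eq_mul, ← mul_assoc]
    refine mul_le_mul' ?_ le_rfl
    rw [← ENNReal.ofReal_natCast, ← ENNReal.ofReal_mul (by positivity)]
    refine ENNReal.ofReal_le_ofReal ?_
    have h2 := G.H_sh o P (sh P (3 * G.C)) l (3 * G.C) hP
      (fun j => by simp only [sh]; linarith [hP j]) h.l_nonneg (by positivity)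
      (fun j => by simp only [sh]; rw [add_sub_cancel_left, abs_of_nonneg (by positivity)])
    calc (F.card : ℝ) * Real.exp (G.C * (1 + 5 * G.C))
        ≤ Real.exp (G.H o P l + G.C * (1 + 3 * G.C) + G.C) * Real.exp (G.C * (1 + 5 * G.C)) := by
          refine mul_le_mul_of_nonneg_right (hF1.trans (Real.exp_le_exp.2 (by linarith)))
            (Real.exp_pos _).le
      _ = Real.exp G.M4 * Real.exp (G.H o P l - G.C * (1 + G.C)) := by
          rw [← Real.exp_add, ← Real.exp_add]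
          congr 1
          unfold Geo.M4
          ring
      _ ≤ _ := mul_le_mul_of_nonneg_left hXc (Real.exp_pos _).le
  · intro e n hn y hy he
    have h1 : n⁻¹ ∈ G.N (sh (bump ρ o l 0) (2 * G.C)) := by
      have := G.N_inv _ (fun j => by simp only [sh]; linarith [hup j]) n hn
      rw [sh_sh] at this
      exact N_sh_eq this (by ring)
    have h2 : y ∈ G.N (sh (bump ρ o l 0) (2 * G.C)) := by
      refine G.N_mono _ _ (fun j => ?_) (G.U_N o _ _ (by linarith [h.l_nonneg, hP o]) (hP none)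
        (hXU y hy))
      simp only [sh]
      linarith [h.exto_le j]
    have h3 : y * n⁻¹ ∈ G.N (sh (bump ρ o l 0) (3 * G.C)) := by
      have := G.N_mul _ (fun j => by simp only [sh]; linarith [hup j]) y h2 _ h1
      rw [sh_sh] at this
      exact N_sh_eq this (by ring)
    obtain ⟨z, hz, n', hn', hyz⟩ := hF2 _ (G.N_mono _ _ (h.bump_le (3 * G.C)) h3)
    rw [sh_sh] at hn'
    refine mem_iUnion₂.2 ⟨z, hz, ?_⟩
    show e * z⁻¹ ∈ G.N (sh P (5 * G.C))
    have h4 : e * z⁻¹ = (e * n * y⁻¹) * n' := by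
      have h5 : n' = y * n⁻¹ * z⁻¹ := by rw [hyz]; group
      rw [h5]; group
    rw [h4]
    have h6 : (e * n * y⁻¹) ∈ G.N (sh P (4 * G.C)) := by
      refine G.N_mono _ _ (fun j => ?_) he
      simp only [sh]; linarith
    have h7 : n' ∈ G.N (sh P (4 * G.C)) := N_sh_eq hn' (by ring)
    have := G.N_mul _ (fun j => by simp only [sh]; linarith [hP j]) _ h6 _ h7
    rw [sh_sh] at this
    exact N_sh_eq this (by ring)

/-- **AVG.** A set of small density in all the boxes of the large window is avoided by most links, for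
most locations in the box of `P`. -/
theorem avg_links {o : Option ι} {P ρ : Option ι → ℝ} {l x : ℝ} (h : Rel2 G o P ρ l)
    (hP : ∀ j, 0 ≤ P j) (hwin : ∀ j, |P (some j) + 3 * G.C - x * G.p j| ≤ G.δ0 * x)
    (hn : P none + 3 * G.C ≤ G.δ0 * x) (hl : l ≤ G.δ0 * x)
    (hlP : ∀ j : ι, G.C * (l + 1) ≤ P (some j)) {X : Finset E}
    (hXU : ∀ y ∈ X, y ∈ G.U o (P o + l) (P none))
    (hXc : Real.exp (G.H o P l - G.C * (1 + G.C)) ≤ X.card)
    (hXd : ∀ y ∈ X, ∀ y' ∈ X, y ≠ y' → ∀ n ∈ G.N (sh P G.C), ∀ n' ∈ G.N (sh P G.C),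
      n * y ≠ n' * y') {B : Set E} (hB : MeasurableSet B) {ε2 ε1 : ℝ} (hε2 : 0 ≤ ε2)
    (hε1 : 0 < ε1)
    (hBd : ∀ e, G.ν {n | n ∈ G.N (sh (bump ρ o l 0) G.C) ∧ e * n ∈ B} ≤
      ENNReal.ofReal ε2 * G.ν (G.N (sh (bump ρ o l 0) G.C))) :
    G.ν {n0 | n0 ∈ G.N P ∧ ENNReal.ofReal (ε1 * X.card) * G.ν (G.N ρ) <
      ∑ y ∈ X, G.ν {n | n ∈ G.N ρ ∧ n0 * n * y ∈ B}} ≤
      ENNReal.ofReal (ε2 * Real.exp G.M4 / ε1) * G.ν (G.N P) := by
  classical
  haveI := G.ν_mm
  haveI := G.ν_mi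
  haveI := G.ν_sf
  haveI := G.ν_right
  have hC := G.C_pos
  have hup : ∀ j, 0 ≤ sh (bump ρ o l 0) G.C j := fun j => by
    simp only [sh]; linarith [h.nonneg j, h.up_ge j]
  obtain ⟨Z', hZ'm, hZ'v, hZ'⟩ := cover_vol h hP hwin hn hl hlP hXU hXc
  have hXpos : (0 : ℝ) < X.card := lt_of_lt_of_le (Real.exp_pos _) hXc
  set Z : Set E := ⋃ y ∈ X, (fun e => e * y⁻¹) ⁻¹' G.N (sh P G.C) with hZ
  have hZm : MeasurableSet Z :=
    Finset.measurableSet_biUnion _ fun z _ => (measurable_mul_const _) (G.N_meas _)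
  have h1 : G.ν (B ∩ Z) ≤ ENNReal.ofReal ε2 * G.ν Z' := by
    refine dens_transfer hB hZm hZ'm (G.N_meas _) (G.ν_N_pos _ hup).ne' (G.ν_N_top _).ne
      (fun e n hn hen => ?_) hBd
    obtain ⟨y, hy, hy2⟩ := mem_iUnion₂.1 hen
    exact hZ' e n hn y hy hy2
  have h2 : ∑ y ∈ X, G.ν {m | m ∈ G.N (sh P G.C) ∧ m * y ∈ B} = G.ν (B ∩ Z) := by
    have h3 : ∀ y, G.ν {m | m ∈ G.N (sh P G.C) ∧ m * y ∈ B} =
        G.ν (B ∩ (fun e => e * y⁻¹) ⁻¹' G.N (sh P G.C)) := by
      intro y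
      rw [← measure_preimage_mul_right G.ν y (B ∩ (fun e => e * y⁻¹) ⁻¹' G.N (sh P G.C))]
      congr 1
      ext m
      simp only [mem_setOf_eq, mem_preimage, mem_inter_iff, mul_inv_cancel_right]
      exact and_comm
    simp_rw [h3]
    rw [hZ, inter_iUnion₂]
    refine (measure_biUnion_finset ?_ fun y _ => hB.inter ((measurable_mul_const _) (G.N_meas _))).symm
    intro y hy y' hy' hne
    rw [Function.onFun, Set.disjoint_left]
    rintro e ⟨_, he⟩ ⟨_, he'⟩
    exact hXd y hy y' hy' hne _ he _ he' (by simp)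
  have h3 : ∫⁻ p in G.N P, ∑ y ∈ X, G.ν {n | n ∈ G.N ρ ∧ p * n * y ∈ B} ∂G.ν ≤
      G.ν (G.N ρ) * (ENNReal.ofReal (ε2 * Real.exp G.M4 * X.card) * G.ν (G.N P)) := by
    rw [lintegral_finset_sum _ fun y _ => meas_section hB (G.N_meas ρ) y]
    refine (Finset.sum_le_sum fun y _ => avg_box hB (G.N_meas P) (G.N_meas ρ)
      (G.N_meas (sh P G.C)) y fun p hp q hq => G.N_mul P hP p hp q
        (G.N_mono _ _ h.le' hq)).trans ?_
    rw [← Finset.mul_sum, h2]
    refine mul_le_mul' le_rfl ((h1.trans (mul_le_mul' le_rfl hZ'v)).trans (le_of_eq ?_))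
    rw [← mul_assoc, ← ENNReal.ofReal_mul hε2]
    congr 2
    ring
  have hρ0 := G.ν_N_pos ρ h.nonneg
  have hρt := G.ν_N_top ρ
  have hδ0 : ENNReal.ofReal (ε1 * X.card) * G.ν (G.N ρ) ≠ 0 :=
    mul_ne_zero (by simp only [ne_eq, ENNReal.ofReal_eq_zero, not_le]; positivity) hρ0.ne'
  have hδt : ENNReal.ofReal (ε1 * X.card) * G.ν (G.N ρ) ≠ ⊤ :=
    ENNReal.mul_ne_top ENNReal.ofReal_ne_top hρt.ne
  refine (markov_set (G.N_meas P) (Finset.measurable_sum _ fun y _ =>
    meas_section hB (G.N_meas ρ) y) hδ0 hδt h3).trans ?_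
  rw [ENNReal.div_le_iff hδ0 hδt]
  have h4 : ENNReal.ofReal (ε2 * Real.exp G.M4 * X.card) =
      ENNReal.ofReal (ε2 * Real.exp G.M4 / ε1) * ENNReal.ofReal (ε1 * X.card) := by
    rw [← ENNReal.ofReal_mul (by positivity)]
    congr 1
    field_simp
  rw [h4]
  refine le_of_eq ?_
  ring

end Vale.P188.H532
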