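import Vale.Agent.P188.H532.Path

/-!
# P188, route B: the statements of the blocks T_o, CHAIN
-/

set_option linter.all false

namespace Vale.P188.H532

open MeasureTheory Set

variable {S E V ι L : Type} [Group S] [Group E] [MeasurableSpace E] [NormedAddCommGroup V]
    [NormedSpace ℝ V] [Fintype ι] [DecidableEq ι] [Fintype L]

/-- windows at scale `x` (relative width `δ`) with neutral extent in `[r0, (1 + δ) r0]` -/
structure Win (G : Geo S E V ι L) (δ x r0 : ℝ) (ρ : Option ι → ℝ) : Prop where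
  ray : ∀ j, |ρ (some j) - x * G.p j| ≤ δ * x
  lo : r0 ≤ ρ none
  hi : ρ none ≤ (1 + δ) * r0

/-- all the windows of relative width `δ0 / (4 C)` are flat, at all locations -/
def FlatW (G : Geo S E V ι L) (Ψ : S → S) (r x r0 ω ε : ℝ) : Prop :=
  ∀ ρ, Win G (G.δ0 / (4 * G.C)) x r0 ρ → ∀ g, (∃ c, IsC G Ψ r ω ε ρ g c) ∧ NFl G Ψ ω ε ρ g

/-- the window `P'` is obtained from `P` by extending `o` and shrinking all the other rays (much more) -/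
structure Step (K : ℝ) (o : Option ι) (P P' : Option ι → ℝ) : Prop where
  self : P o ≤ P' o
  hnone : o ≠ none → P' none = P none
  le : ∀ j : ι, o ≠ some j → P' (some j) + K * (P' o - P o + 1) ≤ P (some j)

/-- **T_o** -/
def TO (G : Geo S E V ι L) (Λ : ℝ) : Prop :=
  ∃ K δ1 : ℝ, 1 ≤ K ∧ 0 < δ1 ∧ ∀ η ε1 : ℝ, 0 < η → 0 < ε1 → ∃ ε0 : ℝ, 0 < ε0 ∧
    ∀ (Ψ : S → S) (x r0 : ℝ), QIe G Λ Ψ → Sc G K x (η * x) r0 → K ≤ r0 →
    FlatW G Ψ 0 x r0 (η * x) ε0 → ∀ (o : Option ι) (P P' : Option ι → ℝ) (Y : S) (c : V),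
    Step K o P P' → Win G δ1 x r0 P → Win G δ1 x r0 P' → IsC G Ψ 0 (η * x) ε0 P Y c →
    G.ν {n0 | n0 ∈ G.N P ∧ ∃ c', IsC G Ψ 0 (η * x) ε0 P' (Y * G.inc n0) c' ∧
      K * (η * x) < ‖c' - c‖} ≤ ENNReal.ofReal ε1 * G.ν (G.N P)

/-- **CHAIN** : the constants of two windows at the same location are close -/
def CHAIN (G : Geo S E V ι L) (Λ : ℝ) : Prop :=
  ∃ K δ2 : ℝ, 1 ≤ K ∧ 0 < δ2 ∧ ∀ η : ℝ, 0 < η → ∃ ε0 : ℝ, 0 < ε0 ∧
    ∀ (Ψ : S → S) (x r0 : ℝ), QIe G Λ Ψ → Sc G K x (η * x) r0 → K ≤ r0 →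
    FlatW G Ψ 0 x r0 (η * x) ε0 → ∀ (ρ ρ' : Option ι → ℝ) (Y : S) (c c' : V),
    (∀ j, ρ j ≤ ρ' j) → Win G δ2 x r0 ρ → Win G δ2 x r0 ρ' → IsC G Ψ 0 (η * x) ε0 ρ Y c →
    IsC G Ψ 0 (η * x) ε0 ρ' Y c' → ‖c' - c‖ ≤ K * (η * x)

variable {G : Geo S E V ι L} {Λ : ℝ} {Ψ : S → S}

theorem IsC.mono' {r r' ω ω' ε ε' : ℝ} {ρ : Option ι → ℝ} {g : S} {c : V}
    (h : IsC G Ψ r ω ε ρ g c) (hr : r' ≤ r) (hω : ω ≤ ω') (hε : ε ≤ ε') :
    IsC G Ψ r' ω' ε' ρ g c := by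
  intro h' hh
  refine (measure_mono ?_).trans ((h h' (hh.imp (fun h1 => h1.trans hr) id)).trans
    (mul_le_mul' (ENNReal.ofReal_le_ofReal hε) le_rfl))
  rintro n ⟨h1, h2⟩
  exact ⟨h1, hω.trans_lt h2⟩

theorem NFl.mono {ω ω' ε ε' : ℝ} {ρ : Option ι → ℝ} {g : S} (h : NFl G Ψ ω ε ρ g) (hω : ω ≤ ω')
    (hε : ε ≤ ε') : NFl G Ψ ω' ε' ρ g := by
  intro y hy
  refine (measure_mono ?_).trans ((h y hy).trans
    (mul_le_mul' (ENNReal.ofReal_le_ofReal (mul_le_mul_of_nonneg_right hε (Real.exp_pos _).le)) le_rfl))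
  rintro n ⟨h1, h2⟩
  exact ⟨h1, hω.trans_lt h2⟩

theorem FlatW.mono {r r' x r0 ω ω' ε ε' : ℝ} (h : FlatW G Ψ r x r0 ω ε) (hr : r' ≤ r)
    (hω : ω ≤ ω') (hε : ε ≤ ε') : FlatW G Ψ r' x r0 ω' ε' := by
  intro ρ hρ g
  obtain ⟨⟨c, hc⟩, h2⟩ := h ρ hρ g
  exact ⟨⟨c, hc.mono' hr hω hε⟩, h2.mono hω hε⟩

theorem Win.mono {δ δ' x r0 : ℝ} {ρ : Option ι → ℝ} (h : Win G δ x r0 ρ) (hx : 0 ≤ x)
    (hr : 0 ≤ r0) (hδ : δ ≤ δ') : Win G δ' x r0 ρ :=
  ⟨fun j => (h.ray j).trans (mul_le_mul_of_nonneg_right hδ hx), h.lo,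
    h.hi.trans (mul_le_mul_of_nonneg_right (by linarith) hr)⟩

/-- INPUT gives flat windows with neutral extents in a whole interval -/
theorem Input.flatW {𝓕 : Set (S → S)} (h : Input G 𝓕) : ∃ c7 : ℝ, 0 < c7 ∧ ∀ η : ℝ, 0 < η →
    ∃ dm : ℝ, 0 < dm ∧ ∀ d : ℝ, 0 < d → d ≤ dm → ∃ x0 : ℝ, ∀ Ψ ∈ 𝓕, ∀ x : ℝ, x0 ≤ x →
      FlatW G Ψ (c7 * x) x (d * x) (η * x) η := by
  obtain ⟨c7, hc7, H⟩ := h
  refine ⟨c7, hc7, fun η hη => ?_⟩
  obtain ⟨dm, hdm, H⟩ := H (η / 2) (by positivity)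
  refine ⟨dm, hdm, fun d hd hdd => ?_⟩
  obtain ⟨x0, H⟩ := H d hd hdd
  refine ⟨max x0 0, fun Ψ hΨ x hx ρ hρ g => ?_⟩
  have hx0 : x0 ≤ x := (le_max_left _ _).trans hx
  have hx1 : 0 ≤ x := (le_max_right _ _).trans hx
  have hC := G.C_pos
  have hδ0 := G.δ0_pos
  have h1 : x ≤ ρ none / d := by
    rw [le_div_iff₀ hd]; linarith [hρ.lo]
  have hq : G.δ0 / (4 * G.C) ≤ 1 := by
    rw [div_le_one (by positivity)]
    linarith [G.δ0_le, G.one_le_C]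
  have h2 : ρ none / d ≤ (1 + G.δ0 / (4 * G.C)) * x := by
    rw [div_le_iff₀ hd]
    have := hρ.hi
    nlinarith
  have hA : Adm G d (ρ none / d) ρ := by
    refine ⟨by field_simp, fun j => ?_⟩
    have h3 := hρ.ray j
    have h4 : |x * G.p j - (ρ none / d) * G.p j| ≤ G.δ0 / (4 * G.C) * x * G.C := by
      rw [← sub_mul, abs_mul]
      have h5 : |x - ρ none / d| ≤ G.δ0 / (4 * G.C) * x := by
        rw [abs_le]
        constructor <;> nlinarith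
      have h6 : |G.p j| ≤ G.C := by
        rw [abs_of_pos (by linarith [G.p_lb j, G.c1_pos])]
        linarith [G.p_ub j]
      exact mul_le_mul h5 h6 (abs_nonneg _) (by positivity)
    have h7 : |ρ (some j) - (ρ none / d) * G.p j| ≤ G.δ0 / (4 * G.C) * x + G.δ0 / (4 * G.C) * x * G.C := by
      calc |ρ (some j) - (ρ none / d) * G.p j| =
          |(ρ (some j) - x * G.p j) + (x * G.p j - (ρ none / d) * G.p j)| := by congr 1; ring
        _ ≤ _ := (abs_add_le _ _).trans (add_le_add h3 h4)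
    have h8 : G.δ0 / (4 * G.C) * x + G.δ0 / (4 * G.C) * x * G.C ≤ G.δ0 * x := by
      have h9 : G.δ0 / (4 * G.C) ≤ G.δ0 / 4 := by
        apply div_le_div_of_nonneg_left hδ0.le (by norm_num)
        linarith [G.one_le_C]
      have h10 : G.δ0 / (4 * G.C) * x * G.C = G.δ0 / 4 * x := by field_simp
      rw [h10]
      nlinarith
    exact h7.trans (h8.trans (mul_le_mul_of_nonneg_left h1 hδ0.le))
  obtain ⟨⟨c, hc⟩, hn⟩ := H Ψ hΨ (ρ none / d) (hx0.trans h1) ρ hA g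
  have h3 : η / 2 * (ρ none / d) ≤ η * x := by
    have h4 : ρ none / d ≤ 2 * x := by nlinarith
    calc η / 2 * (ρ none / d) ≤ η / 2 * (2 * x) := mul_le_mul_of_nonneg_left h4 (by positivity)
      _ = η * x := by ring
  exact ⟨⟨c, hc.mono' (mul_le_mul_of_nonneg_left h1 hc7.le) h3 (by linarith)⟩,
    hn.mono h3 (by linarith)⟩

/-- the scales are compatible -/
theorem exists_Sc (G : Geo S E V ι L) (K : ℝ) (hK : 1 ≤ K) (η : ℝ) (hη : 0 < η)
    (hηK : η ≤ 1 / K) : ∃ dm : ℝ, 0 < dm ∧ ∀ d : ℝ, 0 < d → d ≤ dm → ∃ x0 : ℝ, ∀ x : ℝ, x0 ≤ x →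
      Sc G K x (η * x) (d * x) ∧ K ≤ d * x := by
  have hK0 : 0 < K := by linarith
  refine ⟨η / (2 * K), by positivity, fun d hd hdd => ?_⟩
  obtain ⟨B, hB⟩ := G.er_sub (η / (2 * K * K)) (by positivity)
  -- exponential
  have h1 : ∃ x1 : ℝ, ∀ x : ℝ, x1 ≤ x → K * x ≤ Real.exp (η * x / K) := by
    have h2 := Real.tendsto_exp_div_pow_atTop 1
    have h3 := (h2.eventually_ge_atTop (K * (K / η))).and (Filter.eventually_gt_atTop 0)
    obtain ⟨y0, hy0⟩ := Filter.eventually_atTop.1 h3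
    refine ⟨y0 * (K / η), fun x hx => ?_⟩
    have h4 : y0 ≤ η * x / K := by
      rw [le_div_iff₀ hK0]
      have : y0 * (K / η) * η ≤ x * η := mul_le_mul_of_nonneg_right hx hη.le
      have h5 : y0 * (K / η) * η = y0 * K := by field_simp
      linarith
    obtain ⟨h6, h7⟩ := hy0 _ h4
    rw [pow_one, le_div_iff₀ h7] at h6
    refine le_trans (le_of_eq ?_) h6
    field_simp
  obtain ⟨x1, hx1⟩ := h1
  refine ⟨max (max x1 (K / η)) (max (max (2 * K / η) (2 * K * max B 0 / η)) (K / d)), fun x hx => ?_⟩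
  simp only [max_le_iff] at hx
  obtain ⟨⟨h2, h3⟩, ⟨h4, h5⟩, h6⟩ := hx
  rw [div_le_iff₀ hη] at h3 h4 h5
  rw [div_le_iff₀ hd] at h6
  have hx0 : 0 ≤ x := by
    by_contra hc
    push Not at hc
    nlinarith
  refine ⟨⟨hK, by linarith, by positivity, ?_, ?_, ?_, hx1 x h2⟩, by linarith⟩
  · have h7 : K * (d * x) ≤ η * x / 2 := by
      have h8 : d * x ≤ η / (2 * K) * x := mul_le_mul_of_nonneg_right hdd hx0
      calc K * (d * x) ≤ K * (η / (2 * K) * x) := mul_le_mul_of_nonneg_left h8 hK0.le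
        _ = _ := by field_simp
    nlinarith
  · have h7 : K * η ≤ 1 := by
      rw [le_div_iff₀ hK0] at hηK; linarith
    calc K * (η * x) = (K * η) * x := by ring
      _ ≤ 1 * x := mul_le_mul_of_nonneg_right h7 hx0
      _ = x := one_mul x
  · have h7 := hB (K * x) (by positivity)
    have h8 : K * G.er (K * x) ≤ K * (η / (2 * K * K) * (K * x) + max B 0) :=
      mul_le_mul_of_nonneg_left (h7.trans (by linarith [le_max_left B 0])) hK0.le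
    have h9 : K * (η / (2 * K * K) * (K * x) + max B 0) = η * x / 2 + K * max B 0 := by
      field_simp
    rw [h9] at h8
    nlinarith

end Vale.P188.H532
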