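import Vale.Agent.P188.H532.Links
import Vale.Agent.P188.H532.Stmt

/-!
# P188, route B: very typical points of a box are connected by confined paths
-/

set_option linter.all false

namespace Vale.P188.H532

open MeasureTheory Set
open Vale.Agent.P188.H329 (Reach)

variable {S E V ι L : Type} [Group S] [Group E] [MeasurableSpace E] [NormedAddCommGroup V]
    [NormedSpace ℝ V] [Fintype ι] [DecidableEq ι] [Fintype L]

variable {G : Geo S E V ι L} {Λ : ℝ} {Ψ : S → S}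

/-- scaling of `Sc` -/
theorem Sc.scale {K K' a x ω r0 r0' : ℝ} (h : Sc G K x ω r0) (hK' : 1 ≤ K') (ha : 1 ≤ a)
    (haK : 3 * a * K' ≤ K) (hr : 0 ≤ r0') (hr' : r0' ≤ 2 * (r0 + 1)) : Sc G K' x (a * ω) r0' := by
  have hω := h.ω_pos
  have hx := h.x_pos
  have h1 : K' ≤ K := by nlinarith
  have h2 : ω ≤ a * ω := by nlinarith
  have h3 : 4 * (r0' + 1) ≤ 4 * (2 * (r0 + 1) + 1) := by linarith
  have hr0 := h.r0_nonneg
  refine ⟨hK', ?_, hr, ?_, ?_, ?_, ?_⟩
  · exact h1.trans (h.ω_ge.trans h2)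
  · have h4 : K' * (r0' + 1) ≤ K' * (3 * (r0 + 1)) :=
      mul_le_mul_of_nonneg_left (by linarith) (by linarith)
    have h5 : 3 * K' ≤ K := by nlinarith
    have h6 := mul_le_mul_of_nonneg_right h5 (by linarith : (0:ℝ) ≤ r0 + 1)
    linarith [h.r0_le]
  · calc K' * (a * ω) = (a * K') * ω := by ring
      _ ≤ K * ω := mul_le_mul_of_nonneg_right (by nlinarith) hω.le
      _ ≤ x := h.x_ge
  · exact (h.er_le' h1 (by linarith) h1).trans h2
  · refine (mul_le_mul_of_nonneg_right h1 hx.le).trans (h.x_exp.trans (Real.exp_le_exp.2 ?_))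
    rw [div_le_div_iff₀ h.K_pos (by linarith)]
    have : ω * K' ≤ ω * K := mul_le_mul_of_nonneg_left h1 hω.le
    have h5 : ω * K ≤ a * ω * K := by
      have := mul_nonneg hω.le h.K_pos.le
      nlinarith
    linarith

/-- letters between typical points: confined paths -/
theorem reach_cp (hQ : QIe G Λ Ψ) {βm K : ℝ} (hβ : 0 < βm) (hβm : ∀ i, βm ≤ G.β i)
    (hK : SlK G Λ βm K) {x ω : ℝ} {ρ : Option ι → ℝ} (hS : Sc G K x (2 * ω) (ρ none))
    (hwin : ∀ j, |ρ (some j) - x * G.p j| ≤ G.δ0 * x) (hω : 2 * G.C * Λ * (G.C + 1) ≤ ω)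
    {c : V} {g : S} (m : ℕ) (a b : E) (h : Reach (G.lt ρ) (TS G Ψ ρ c ω g) m a b) :
    CP G (Λ * (G.C + 1)) (fun j => G.b j (G.θ g + c) + ρ (some j) + K * (2 * ω))
      ((m + 1) * Real.exp (2 * ω)) (Ψ (g * G.inc a)) (Ψ (g * G.inc b)) := by
  have hω0 := hS.ω_pos
  have hρ0 := hS.r0_nonneg
  have hρ : ∀ j : ι, 0 ≤ ρ (some j) := fun j =>
    (mul_nonneg G.c1_pos.le hS.x_pos.le).trans (win_ge G hS.x_pos.le hwin j)
  have he : (1 : ℝ) ≤ Real.exp (2 * ω) := Real.one_le_exp hω0.le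
  have hCK : G.C ≤ K := by
    have := hK.b
    have h6 := pow_nonneg G.C_nonneg 3
    linarith
  induction m generalizing a with
  | zero =>
    obtain ⟨h1, rfl⟩ := h
    have hT := TS_typ hQ hρ0 hω h1
    refine CP.refl (by push_cast; linarith) fun j => ?_
    have h6 := b_W_le G hT.base j
    rw [θΨ, G.θ_mul, G.θ_inc, add_zero, map_add, map_add]
    have h7 := hρ j
    have h8 := mul_le_mul_of_nonneg_right hCK hω0.le
    linarith
  | succ m ih =>
    obtain ⟨h1, i, u, hu, h2⟩ := h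
    have h3 := ih _ h2
    have h4 : a * G.lt ρ i u ∈ TS G Ψ ρ c ω g := h2.left
    have h5 := TS_typ hQ hρ0 hω h4
    rw [map_mul, ← mul_assoc] at h5
    have h6 := slide_letter hQ hβ hβm hK hS hwin hu (TS_typ hQ hρ0 hω h1) h5
    rw [mul_assoc, ← map_mul] at h6
    have h7 := h6.mono (H' := fun j => G.b j (G.θ g + c) + ρ (some j) + K * (2 * ω)) le_rfl
      (fun j => by rw [G.θ_mul, G.θ_inc, add_zero]) (le_refl _)
    refine (h7.trans h3).mono le_rfl (fun j => le_rfl) ?_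
    push_cast
    linarith

/-- the very typical points of a window are connected by confined paths -/
theorem av_cp (hQ : QIe G Λ Ψ) (𝒢 : ConnData G) {βm K : ℝ} (hβ : 0 < βm) (hβm : ∀ i, βm ≤ G.β i)
    (hK : SlK G Λ βm K) {x ω : ℝ} {ρ : Option ι → ℝ} (hS : Sc G K x (2 * (7 * ω)) (ρ none))
    (hwin : ∀ j, |ρ (some j) - x * G.p j| ≤ G.δ0 * x) (hω : 2 * G.C * Λ * (G.C + 1) ≤ 7 * ω)
    {c : V} {g : S} {a a' : E} (ha : a ∈ Av G 𝒢 Ψ ρ c ω g) (ha' : a' ∈ Av G 𝒢 Ψ ρ c ω g) :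
    CP G (Λ * (G.C + 1)) (fun j => G.b j (G.θ g + c) + ρ (some j) + K * (2 * (7 * ω)))
      ((2 * 𝒢.n + 1) * Real.exp (2 * (7 * ω))) (Ψ (g * G.inc a)) (Ψ (g * G.inc a')) := by
  have hρ : ∀ j, 0 ≤ ρ j := by
    rintro (_ | j)
    · exact hS.r0_nonneg
    · refine le_trans ?_ (win_ge G hS.x_pos.le hwin j)
      exact mul_nonneg G.c1_pos.le hS.x_pos.le
  have h1 : a⁻¹ ∈ G.N (sh ρ G.C) := G.N_inv ρ hρ a ha.2
  have hC := G.C_nonneg
  have h2 : a' ∈ G.N (sh ρ G.C) := G.N_mono _ _ (fun j => by simp only [sh]; linarith) ha'.2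
  have h3 : a⁻¹ * a' ∈ G.N (sh ρ (2 * G.C)) := by
    have := G.N_mul _ (fun j => by simp only [sh]; linarith [hρ j]) _ h1 _ h2
    rw [sh_sh] at this
    exact N_sh_eq this (by ring)
  have h4 := 𝒢.conn ρ hρ _ (TS_meas hQ _ _ _ _) a ha.1 a' ha'.1 h3
  have h5 := reach_cp hQ hβ hβm hK hS hwin hω _ _ _ h4
  refine h5.mono le_rfl (fun j => le_rfl) ?_
  push_cast
  exact le_rfl

end Vale.P188.H532
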