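import Vale.Agent.P188.H532.Slide2

/-!
# P188, route B: typical points are dense
-/

set_option linter.all false

namespace Vale.P188.H532

open MeasureTheory Set

variable {S E V ι L : Type} [Group S] [Group E] [MeasurableSpace E] [NormedAddCommGroup V]
    [NormedSpace ℝ V] [Fintype ι] [DecidableEq ι] [Fintype L]

/-- a net of the neutral elements -/
noncomputable def Geo.net (G : Geo S E V ι L) (r : ℝ) : Finset E :=
  open Classical in if h : 0 ≤ r then (G.Y_net r h).choose else ∅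

theorem Geo.net_card (G : Geo S E V ι L) {r : ℝ} (h : 0 ≤ r) :
    ((G.net r).card : ℝ) ≤ Real.exp (G.C * (r + 1)) := by
  unfold Geo.net
  rw [dif_pos h]
  exact (G.Y_net r h).choose_spec.1

theorem Geo.net_mem (G : Geo S E V ι L) {r : ℝ} (h : 0 ≤ r) : ∀ y ∈ G.net r, y ∈ G.Y0 r := by
  unfold Geo.net
  rw [dif_pos h]
  exact (G.Y_net r h).choose_spec.2.1

theorem Geo.net_near (G : Geo S E V ι L) {r : ℝ} (h : 0 ≤ r) :
    ∀ y ∈ G.Y0 r, ∃ y' ∈ G.net r, G.l (G.inc (y'⁻¹ * y)) ≤ G.C := by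
  unfold Geo.net
  rw [dif_pos h]
  exact (G.Y_net r h).choose_spec.2.2

/-- typical points (measurable version) -/
def TS (G : Geo S E V ι L) (Ψ : S → S) (ρ : Option ι → ℝ) (c : V) (ω : ℝ) (g : S) : Set E :=
  {e | ‖Wd G Ψ (g * G.inc e) - c‖ ≤ ω ∧
    (∀ (j : ι) (m : ℕ), m * G.β j ≤ ρ (some j) + G.β j →
      ‖Wd G Ψ (g * G.inc e * G.t j ^ m) - c‖ ≤ ω) ∧
    ∀ y ∈ G.net (ρ none), ‖Wd G Ψ (g * G.inc e * G.inc y) - c‖ ≤ ω}

variable {G : Geo S E V ι L} {Λ : ℝ} {Ψ : S → S}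

theorem Wd_meas (hQ : QIe G Λ Ψ) (g h : S) (P : Set V) :
    MeasurableSet {e : E | Wd G Ψ (g * G.inc e * h) ∈ P} := by
  have h1 := hQ.meas g h {s | G.θ s - G.θ (g * h) ∈ P}
  convert h1 using 1
  ext e
  simp only [mem_setOf_eq]
  unfold Wd
  rw [G.θ_mul (g * G.inc e) h, G.θ_mul g, G.θ_inc, add_zero, G.θ_mul g h]

theorem Wd_meas_norm (hQ : QIe G Λ Ψ) (g h : S) (c : V) (ω : ℝ) :
    MeasurableSet {e : E | ‖Wd G Ψ (g * G.inc e * h) - c‖ ≤ ω} :=
  Wd_meas hQ g h {v | ‖v - c‖ ≤ ω}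

theorem TS_meas (hQ : QIe G Λ Ψ) (ρ : Option ι → ℝ) (c : V) (ω : ℝ) (g : S) :
    MeasurableSet (TS G Ψ ρ c ω g) := by
  unfold TS
  rw [show {e : E | ‖Wd G Ψ (g * G.inc e) - c‖ ≤ ω ∧
    (∀ (j : ι) (m : ℕ), m * G.β j ≤ ρ (some j) + G.β j →
      ‖Wd G Ψ (g * G.inc e * G.t j ^ m) - c‖ ≤ ω) ∧
    ∀ y ∈ G.net (ρ none), ‖Wd G Ψ (g * G.inc e * G.inc y) - c‖ ≤ ω} =
    {e | ‖Wd G Ψ (g * G.inc e * 1) - c‖ ≤ ω} ∩
    ((⋂ (j : ι) (m : ℕ), {e | m * G.β j ≤ ρ (some j) + G.β j →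
      ‖Wd G Ψ (g * G.inc e * G.t j ^ m) - c‖ ≤ ω}) ∩
    ⋂ y ∈ G.net (ρ none), {e | ‖Wd G Ψ (g * G.inc e * G.inc y) - c‖ ≤ ω}) by
      ext e
      simp only [mem_setOf_eq, mem_inter_iff, mem_iInter, mul_one]]
  refine (Wd_meas_norm hQ g 1 c ω).inter (MeasurableSet.inter ?_ ?_)
  · refine MeasurableSet.iInter fun j => MeasurableSet.iInter fun m => ?_
    by_cases h : m * G.β j ≤ ρ (some j) + G.β j
    · simp only [h, true_imp_iff]
      exact Wd_meas_norm hQ g _ c ω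
    · simp only [h, false_imp_iff, setOf_true]
      exact MeasurableSet.univ
  · exact Finset.measurableSet_biInter _ fun y _ => Wd_meas_norm hQ g _ c ω

theorem TS_typ (hQ : QIe G Λ Ψ) {ρ : Option ι → ℝ} {c : V} {ω : ℝ} {g : S} (hρ : 0 ≤ ρ none)
    (hω : 2 * G.C * Λ * (G.C + 1) ≤ ω) {e : E} (he : e ∈ TS G Ψ ρ c ω g) :
    Typ G Ψ ρ c (2 * ω) (g * G.inc e) := by
  obtain ⟨h1, h2, h3⟩ := he
  have hω0 : 0 ≤ ω := (norm_nonneg _).trans h1
  refine ⟨h1.trans (by linarith), fun j m hm => (h2 j m hm).trans (by linarith), fun y hy => ?_⟩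
  obtain ⟨y', hy', hl⟩ := G.net_near hρ y hy
  have h4 := Wd_lip hQ (g * G.inc e * G.inc y') (G.inc (y'⁻¹ * y))
  have h5 : g * G.inc e * G.inc y' * G.inc (y'⁻¹ * y) = g * G.inc e * G.inc y := by
    rw [map_mul, map_inv]; group
  rw [h5] at h4
  have h6 : 2 * G.C * Λ * (G.l (G.inc (y'⁻¹ * y)) + 1) ≤ ω := by
    refine le_trans ?_ hω
    have := hQ.nonneg
    have h7 := G.C_nonneg
    exact mul_le_mul_of_nonneg_left (by linarith) (by positivity)
  calc ‖Wd G Ψ (g * G.inc e * G.inc y) - c‖ = ‖(Wd G Ψ (g * G.inc e * G.inc y) -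
        Wd G Ψ (g * G.inc e * G.inc y')) + (Wd G Ψ (g * G.inc e * G.inc y') - c)‖ := by
        congr 1; abel
    _ ≤ _ := (norm_add_le _ _).trans (by linarith [h3 y' hy'])

theorem TS_equiv {ρ : Option ι → ℝ} {c : V} {ω : ℝ} {g : S} (y a : E) :
    y * a ∈ TS G Ψ ρ c ω g ↔ a ∈ TS G Ψ ρ c ω (g * G.inc y) := by
  unfold TS
  simp only [mem_setOf_eq, map_mul, mul_assoc]

theorem TS_equiv' {ρ : Option ι → ℝ} {c : V} {ω : ℝ} {g : S} (y : E) :
    {a | y * a ∈ TS G Ψ ρ c ω g} = TS G Ψ ρ c ω (g * G.inc y) := by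
  ext a
  exact TS_equiv y a

theorem TS_const {ρ : Option ι → ℝ} {c c' : V} {ω ω' : ℝ} {g : S} (hc : ‖c - c'‖ ≤ ω') :
    TS G Ψ ρ c ω g ⊆ TS G Ψ ρ c' (ω + ω') g := by
  have key : ∀ v : V, ‖v - c‖ ≤ ω → ‖v - c'‖ ≤ ω + ω' := by
    intro v hv
    calc ‖v - c'‖ = ‖(v - c) + (c - c')‖ := by congr 1; abel
      _ ≤ _ := (norm_add_le _ _).trans (add_le_add hv hc)
  rintro e ⟨h1, h2, h3⟩
  exact ⟨key _ h1, fun j m hm => key _ (h2 j m hm), fun y hy => key _ (h3 y hy)⟩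

theorem TS_mono {ρ : Option ι → ℝ} {c : V} {ω ω' : ℝ} {g : S} (hω : ω ≤ ω') :
    TS G Ψ ρ c ω g ⊆ TS G Ψ ρ c ω' g := by
  rintro e ⟨h1, h2, h3⟩
  exact ⟨h1.trans hω, fun j m hm => (h2 j m hm).trans hω, fun y hy => (h3 y hy).trans hω⟩

/-- the bad set of one element `h` -/
def bad (G : Geo S E V ι L) (Ψ : S → S) (ρ : Option ι → ℝ) (c : V) (ω : ℝ) (g h : S) : Set E :=
  {n | n ∈ G.N ρ ∧ ω < ‖Wd G Ψ (g * G.inc n * h) - c‖}

/-- criterion for typical points, with a net of the lines -/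
theorem mem_TS (hQ : QIe G Λ Ψ) {ρ ρ' : Option ι → ℝ} (hρ : ∀ j, ρ j ≤ ρ' j) {c : V} {ω : ℝ} {g : S}
    {q Kn : ℕ} (hq : 0 < q) (hqω : 2 * G.C * Λ * (q * G.C + 1) ≤ ω)
    (hKn : ∀ j : ι, ρ (some j) ≤ (Kn * q : ℕ) * G.β j) {n : E}
    (h1 : ‖Wd G Ψ (g * G.inc n) - c‖ ≤ ω)
    (h2 : ∀ (j : ι), ∀ k ∈ Finset.range (Kn + 1), (k * q : ℕ) * G.β j ≤ ρ' (some j) →
      ‖Wd G Ψ (g * G.inc n * G.t j ^ (k * q)) - c‖ ≤ ω)
    (h3 : ∀ y ∈ G.net (ρ none), ‖Wd G Ψ (g * G.inc n * G.inc y) - Wd G Ψ (g * G.inc n)‖ ≤ ω) :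
    n ∈ TS G Ψ ρ c (3 * ω) g := by
  have hω0 : 0 ≤ ω := (norm_nonneg _).trans h1
  refine ⟨h1.trans (by linarith), fun j m hm => ?_, fun y hy => ?_⟩
  · rcases Nat.eq_zero_or_pos m with rfl | hm0
    · rw [pow_zero, mul_one]
      exact h1.trans (by linarith)
    obtain ⟨m', rfl⟩ : ∃ m', m = m' + 1 := ⟨m - 1, by omega⟩
    have hβ := G.β_pos j
    have h4 : (m' : ℝ) * G.β j ≤ ρ (some j) := by
      push_cast at hm
      linarith
    set k := m' / q with hk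
    have h5 : k * q ≤ m' := Nat.div_mul_le_self m' q
    have h6 : m' < (k + 1) * q := by
      have := Nat.lt_div_mul_add (a := m') hq
      rw [add_mul, one_mul]
      exact this
    have h7 : ((k * q : ℕ) : ℝ) * G.β j ≤ ρ (some j) := by
      have : ((k * q : ℕ) : ℝ) ≤ m' := by exact_mod_cast h5
      nlinarith
    have h8 : k ∈ Finset.range (Kn + 1) := by
      rw [Finset.mem_range]
      by_contra h9
      push Not at h9
      have h10 : ((Kn * q : ℕ) : ℝ) < ((k * q : ℕ) : ℝ) := by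
        have h11 : Kn * q < k * q := Nat.mul_lt_mul_of_pos_right (by omega) hq
        exact_mod_cast h11
      have := hKn j
      nlinarith
    have h9 := h2 j k h8 (h7.trans (hρ _))
    have h10 := Wd_lip hQ (g * G.inc n * G.t j ^ (k * q)) (G.t j ^ (m' + 1 - k * q))
    rw [mul_assoc _ (G.t j ^ (k * q)), ← pow_add,
      Nat.add_sub_cancel' (by omega : k * q ≤ m' + 1)] at h10
    have h11 : G.l (G.t j ^ (m' + 1 - k * q)) ≤ q * G.C := by
      refine (G.l_tpow j _).trans (mul_le_mul_of_nonneg_right ?_ G.C_nonneg)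
      have : m' + 1 - k * q ≤ q := by
        rw [add_mul, one_mul] at h6
        omega
      exact_mod_cast this
    have h12 : 2 * G.C * Λ * (G.l (G.t j ^ (m' + 1 - k * q)) + 1) ≤ ω := by
      refine le_trans ?_ hqω
      have := hQ.nonneg
      have h7 := G.C_nonneg
      exact mul_le_mul_of_nonneg_left (by linarith) (by positivity)
    calc ‖Wd G Ψ (g * G.inc n * G.t j ^ (m' + 1)) - c‖ =
        ‖(Wd G Ψ (g * G.inc n * G.t j ^ (m' + 1)) - Wd G Ψ (g * G.inc n * G.t j ^ (k * q))) +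
          (Wd G Ψ (g * G.inc n * G.t j ^ (k * q)) - c)‖ := by congr 1; abel
      _ ≤ _ := (norm_add_le _ _).trans (by linarith)
  · calc ‖Wd G Ψ (g * G.inc n * G.inc y) - c‖ =
        ‖(Wd G Ψ (g * G.inc n * G.inc y) - Wd G Ψ (g * G.inc n)) +
          (Wd G Ψ (g * G.inc n) - c)‖ := by congr 1; abel
      _ ≤ _ := (norm_add_le _ _).trans (by linarith [h3 y hy])

/-- **Typical points are dense** in the box `N ρ'`, `ρ ≤ ρ'`. -/
theorem TS_dens (hQ : QIe G Λ Ψ) {ρ ρ' : Option ι → ℝ} (hρ : ∀ j, ρ j ≤ ρ' j) (hρ0 : 0 ≤ ρ none)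
    {c : V} {ω r ε : ℝ} {g : S} (hr : 0 ≤ r) (hε : 0 ≤ ε)
    {q Kn : ℕ} (hq : 0 < q) (hqω : 2 * G.C * Λ * (q * G.C + 1) ≤ ω)
    (hKn : ∀ j : ι, ρ (some j) ≤ (Kn * q : ℕ) * G.β j) (hc : IsC G Ψ r ω ε ρ' g c)
    (hn : NFl G Ψ ω ε ρ' g) :
    G.ν (G.N ρ' \ TS G Ψ ρ c (3 * ω) g) ≤
      ENNReal.ofReal ((2 + Fintype.card ι * (Kn + 1)) * ε) * G.ν (G.N ρ') := by
  classical
  set B : Set E := bad G Ψ ρ' c ω g 1 ∪ ((⋃ j ∈ (Finset.univ : Finset ι),
    ⋃ k ∈ (Finset.range (Kn + 1)).filter (fun k => ((k * q : ℕ) : ℝ) * G.β j ≤ ρ' (some j)),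
      bad G Ψ ρ' c ω g (G.t j ^ (k * q))) ∪
    ⋃ y ∈ G.net (ρ none), {n | n ∈ G.N ρ' ∧
      ω < ‖Wd G Ψ (g * G.inc n * G.inc y) - Wd G Ψ (g * G.inc n)‖}) with hB
  have hsub : G.N ρ' \ TS G Ψ ρ c (3 * ω) g ⊆ B := by
    rintro n ⟨hn1, hn2⟩
    by_contra hnB
    apply hn2
    simp only [hB, mem_union, mem_iUnion, not_or, not_exists, Finset.mem_univ, exists_prop,
      true_and, Finset.mem_filter, not_and, and_imp] at hnB
    obtain ⟨hB1, hB2, hB3⟩ := hnB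
    refine mem_TS hQ hρ hq hqω hKn ?_ ?_ ?_
    · by_contra h
      push Not at h
      exact hB1 ⟨hn1, by rwa [mul_one]⟩
    · intro j k hk hk2
      by_contra h
      push Not at h
      exact hB2 j k hk hk2 ⟨hn1, h⟩
    · intro y hy
      by_contra h
      push Not at h
      exact hB3 y hy ⟨hn1, h⟩
  refine (measure_mono hsub).trans ?_
  have h1 : G.ν (bad G Ψ ρ' c ω g 1) ≤ ENNReal.ofReal ε * G.ν (G.N ρ') :=
    hc 1 (Or.inl (by rw [G.l_one]; exact hr))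
  have h2 : G.ν (⋃ j ∈ (Finset.univ : Finset ι),
      ⋃ k ∈ (Finset.range (Kn + 1)).filter (fun k => ((k * q : ℕ) : ℝ) * G.β j ≤ ρ' (some j)),
        bad G Ψ ρ' c ω g (G.t j ^ (k * q))) ≤
      ENNReal.ofReal (Fintype.card ι * (Kn + 1) * ε) * G.ν (G.N ρ') := by
    refine (measure_biUnion_finset_le _ _).trans ?_
    have h3 : ∀ j : ι, G.ν (⋃ k ∈ (Finset.range (Kn + 1)).filter
        (fun k => ((k * q : ℕ) : ℝ) * G.β j ≤ ρ' (some j)),
        bad G Ψ ρ' c ω g (G.t j ^ (k * q))) ≤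
        ENNReal.ofReal ((Kn + 1) * ε) * G.ν (G.N ρ') := by
      intro j
      refine (measure_biUnion_finset_le _ _).trans ?_
      refine (Finset.sum_le_sum (g := fun _ => ENNReal.ofReal ε * G.ν (G.N ρ')) fun k hk => ?_).trans ?_
      · exact hc _ (Or.inr ⟨j, k * q, rfl, (Finset.mem_filter.1 hk).2⟩)
      · rw [Finset.sum_const, nsmul_eq_mul]
        refine (mul_le_mul' (?_ : _ ≤ ((Kn + 1 : ℕ) : ENNReal)) le_rfl).trans (le_of_eq ?_)
        · have := Finset.card_filter_le (Finset.range (Kn + 1))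
            (fun k => ((k * q : ℕ) : ℝ) * G.β j ≤ ρ' (some j))
          rw [Finset.card_range] at this
          exact_mod_cast this
        · rw [← mul_assoc, ENNReal.ofReal_mul (by positivity)]
          congr 2
          rw [← ENNReal.ofReal_natCast]
          push_cast
          rfl
    refine (Finset.sum_le_sum fun j _ => h3 j).trans (le_of_eq ?_)
    rw [Finset.sum_const, nsmul_eq_mul, ← mul_assoc]
    congr 1
    rw [Finset.card_univ, ← ENNReal.ofReal_natCast, ← ENNReal.ofReal_mul (by positivity)]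
    congr 1
    ring
  have h4 : G.ν (⋃ y ∈ G.net (ρ none), {n | n ∈ G.N ρ' ∧
      ω < ‖Wd G Ψ (g * G.inc n * G.inc y) - Wd G Ψ (g * G.inc n)‖}) ≤
      ENNReal.ofReal ε * G.ν (G.N ρ') := by
    refine (measure_biUnion_finset_le _ _).trans ?_
    refine (Finset.sum_le_sum fun y hy =>
      hn y (G.Y_mono _ _ (hρ none) (G.net_mem hρ0 y hy))).trans ?_
    rw [Finset.sum_const, nsmul_eq_mul, ← mul_assoc]
    refine mul_le_mul' ?_ le_rfl
    rw [← ENNReal.ofReal_natCast, ← ENNReal.ofReal_mul (by positivity)]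
    refine ENNReal.ofReal_le_ofReal ?_
    have h5 := G.net_card hρ0
    have h6 : Real.exp (G.C * (ρ none + 1)) ≤ Real.exp (G.C * (ρ' none + 1)) :=
      Real.exp_le_exp.2 (mul_le_mul_of_nonneg_left (by linarith [hρ none]) G.C_nonneg)
    calc ((G.net (ρ none)).card : ℝ) * (ε * Real.exp (-(G.C * (ρ' none + 1))))
        ≤ Real.exp (G.C * (ρ' none + 1)) * (ε * Real.exp (-(G.C * (ρ' none + 1)))) :=
          mul_le_mul_of_nonneg_right (h5.trans h6) (by positivity)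
      _ = ε * (Real.exp (G.C * (ρ' none + 1)) * Real.exp (-(G.C * (ρ' none + 1)))) := by ring
      _ = ε := by rw [← Real.exp_add, add_neg_cancel, Real.exp_zero, mul_one]
  refine (measure_union_le _ _).trans ?_
  refine (add_le_add h1 ((measure_union_le _ _).trans (add_le_add h2 h4))).trans (le_of_eq ?_)
  rw [← add_mul, ← add_mul, ← ENNReal.ofReal_add (by positivity) hε,
    ← ENNReal.ofReal_add hε (by positivity)]
  congr 2
  ring

end Vale.P188.H532
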