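import Vale.Agent.P188.H532.To
import Vale.Agent.P188.H893.EsOf

/-!
# P188, route B: (ES) from INPUT
-/

set_option linter.all false

namespace Vale.P188.H532

open MeasureTheory Set TopologicalSpace

variable {S E V ι L : Type} [Group S] [Group E] [MeasurableSpace E] [NormedAddCommGroup V]
    [NormedSpace ℝ V] [Fintype ι] [DecidableEq ι] [Fintype L]

/-- **Everywhere sublinear height defect, from the flatness at all the large scales.** -/
theorem es_of_input (G : Geo S E V ι L) [SeparableSpace V] (Λ : ℝ) (𝓕 : Set (S → S))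
    (hΛ : ∀ Ψ ∈ 𝓕, QIe G Λ Ψ) (hI : Input G 𝓕) : ES G 𝓕 :=
  es_of_to G Λ 𝓕 hΛ hI (to_holds G Λ)

end Vale.P188.H532
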