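import Mathlib.MeasureTheory.Group.Measure
import Mathlib.MeasureTheory.Group.Prod
import Mathlib.MeasureTheory.Measure.Prod

/-!
# P188, route B: Fubini lemmas on a group
-/

set_option linter.all false

namespace Vale.P188.H532

open MeasureTheory Set
open scoped ENNReal

variable {E : Type} [Group E] [MeasurableSpace E] [MeasurableMul₂ E] [MeasurableInv E]
  {ν : Measure E} [SigmaFinite ν] [ν.IsMulRightInvariant]

/-- right translation of a set -/
theorem right_le {A A' : Set E} (q : E) (h : ∀ a ∈ A, a * q ∈ A') : ν A ≤ ν A' := by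
  have h1 : ν ((fun a => a * q) ⁻¹' A') = ν A' := measure_preimage_mul_right ν q A'
  rw [← h1]
  exact measure_mono fun a ha => h a ha

/-- **Density transfer**: a set `B` which has density `≤ ε` in all the translates `e N'` has small
measure in `Z`. -/
theorem dens_transfer {B Z Z' N' : Set E} (hB : MeasurableSet B) (hZ : MeasurableSet Z)
    (hZ' : MeasurableSet Z') (hN : MeasurableSet N') (hN0 : ν N' ≠ 0) (hNt : ν N' ≠ ⊤) {ε : ℝ≥0∞}
    (hsub : ∀ e, ∀ n ∈ N', e * n ∈ Z → e ∈ Z')
    (hε : ∀ e, ν {n | n ∈ N' ∧ e * n ∈ B} ≤ ε * ν N') : ν (B ∩ Z) ≤ ε * ν Z' := by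
  set A : Set (E × E) := {q | q.2 ∈ N' ∧ q.1 * q.2 ∈ B ∩ Z} with hA
  have hAm : MeasurableSet A :=
    (measurable_snd hN).inter ((measurable_fst.mul measurable_snd) (hB.inter hZ))
  have h1 : (ν.prod ν) A = ν (B ∩ Z) * ν N' := by
    rw [Measure.prod_apply_symm hAm]
    have : ∀ y : E, ν ((fun x => (x, y)) ⁻¹' A) = N'.indicator (fun _ => ν (B ∩ Z)) y := by
      intro y
      by_cases hy : y ∈ N'
      · rw [indicator_of_mem hy]
        have h2 : (fun x => (x, y)) ⁻¹' A = (fun x => x * y) ⁻¹' (B ∩ Z) := by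
          ext x
          simp [hA, hy]
        rw [h2, measure_preimage_mul_right]
      · rw [indicator_of_notMem hy]
        have h2 : (fun x => (x, y)) ⁻¹' A = ∅ := by
          ext x
          simp [hA, hy]
        rw [h2, measure_empty]
    simp_rw [this]
    rw [lintegral_indicator_const hN]
  have h2 : (ν.prod ν) A ≤ (ε * ν N') * ν Z' := by
    rw [Measure.prod_apply hAm, ← lintegral_indicator_const hZ']
    refine lintegral_mono fun e => ?_
    by_cases he : e ∈ Z'
    · rw [indicator_of_mem he]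
      refine (measure_mono ?_).trans (hε e)
      rintro n ⟨h3, h4, _⟩
      exact ⟨h3, h4⟩
    · have h3 : Prod.mk e ⁻¹' A = ∅ := by
        rw [eq_empty_iff_forall_notMem]
        rintro n ⟨h3, _, h4⟩
        exact he (hsub e n h3 h4)
      rw [h3, measure_empty]
      exact zero_le'
  rw [h1] at h2
  have h3 : ν (B ∩ Z) * ν N' ≤ (ε * ν Z') * ν N' := by
    refine h2.trans (le_of_eq ?_)
    ring
  exact (ENNReal.mul_le_mul_iff_left hN0 hNt).1 h3

/-- **Averages over a box** -/
theorem avg_box {B P Q A' : Set E} (hB : MeasurableSet B) (hP : MeasurableSet P)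
    (hQ : MeasurableSet Q) (hA' : MeasurableSet A') (x : E) (h : ∀ p ∈ P, ∀ q ∈ Q, p * q ∈ A') :
    ∫⁻ p in P, ν {q | q ∈ Q ∧ p * q * x ∈ B} ∂ν ≤ ν Q * ν {m | m ∈ A' ∧ m * x ∈ B} := by
  set A : Set (E × E) := {q | q.1 ∈ P ∧ q.2 ∈ Q ∧ q.1 * q.2 * x ∈ B} with hA
  have hAm : MeasurableSet A :=
    (measurable_fst hP).inter ((measurable_snd hQ).inter
      (((measurable_fst.mul measurable_snd).mul_const x) hB))
  have h1 : ∫⁻ p in P, ν {q | q ∈ Q ∧ p * q * x ∈ B} ∂ν = (ν.prod ν) A := by
    rw [Measure.prod_apply hAm, ← lintegral_indicator hP]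
    refine lintegral_congr fun p => ?_
    by_cases hp : p ∈ P
    · rw [indicator_of_mem hp]
      congr 1
      ext q
      simp [hA, hp]
    · rw [indicator_of_notMem hp]
      have h3 : Prod.mk p ⁻¹' A = ∅ := by
        rw [eq_empty_iff_forall_notMem]
        rintro n ⟨h3, _⟩
        exact hp h3
      rw [h3, measure_empty]
  rw [h1, Measure.prod_apply_symm hAm, mul_comm, ← lintegral_indicator_const hQ]
  refine lintegral_mono fun q => ?_
  by_cases hq : q ∈ Q
  · rw [indicator_of_mem hq]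
    refine right_le q ?_
    rintro p ⟨hp, _, hpB⟩
    exact ⟨h p hp q hq, hpB⟩
  · rw [indicator_of_notMem hq]
    have h3 : (fun x => (x, q)) ⁻¹' A = ∅ := by
      rw [eq_empty_iff_forall_notMem]
      rintro n ⟨_, h3, _⟩
      exact hq h3
    rw [h3, measure_empty]

/-- Markov's inequality on a set -/
theorem markov_set {P : Set E} (hP : MeasurableSet P) {f : E → ℝ≥0∞} (hf : Measurable f) {δ : ℝ≥0∞}
    (hδ : δ ≠ 0) (hδt : δ ≠ ⊤) {M : ℝ≥0∞} (h : ∫⁻ p in P, f p ∂ν ≤ M) :
    ν {p | p ∈ P ∧ δ < f p} ≤ M / δ := by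
  rw [ENNReal.le_div_iff_mul_le (Or.inl hδ) (Or.inl hδt)]
  refine le_trans ?_ h
  have h1 := mul_meas_ge_le_lintegral (μ := ν.restrict P) hf δ
  refine le_trans ?_ h1
  rw [mul_comm, Measure.restrict_apply' hP]
  refine mul_le_mul' le_rfl (measure_mono ?_)
  rintro p ⟨h2, h3⟩
  exact ⟨h3.le, h2⟩

/-- measurability of the measure of sections -/
theorem meas_section {B Q : Set E} (hB : MeasurableSet B) (hQ : MeasurableSet Q) (x : E) :
    Measurable fun p : E => ν {q | q ∈ Q ∧ p * q * x ∈ B} := by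
  have hAm : MeasurableSet {q : E × E | q.2 ∈ Q ∧ q.1 * q.2 * x ∈ B} :=
    (measurable_snd hQ).inter (((measurable_fst.mul measurable_snd).mul_const x) hB)
  exact measurable_measure_prodMk_left hAm

end Vale.P188.H532
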