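import Vale.Agent.P188.H532.Dens
import Vale.Agent.P188.H532.Fub
import Vale.Agent.P188.H329.ConnGeo2

/-!
# P188, route B: very typical points, at moving locations
-/

set_option linter.all false

namespace Vale.P188.H532

open MeasureTheory Set
open Vale.Agent.P188.H329 (Reach)

variable {S E V ι L : Type} [Group S] [Group E] [MeasurableSpace E] [NormedAddCommGroup V]
    [NormedSpace ℝ V] [Fintype ι] [DecidableEq ι] [Fintype L]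

/-- output of the connectivity theorem -/
structure ConnData (G : Geo S E V ι L) where
  n : ℕ
  K : ℝ
  C' : ℝ
  Gs : (Option ι → ℝ) → Set E → Set E
  K_nonneg : 0 ≤ K
  C'_nonneg : 0 ≤ C'
  sub : ∀ ρ T, Gs ρ T ⊆ T
  mono : ∀ ρ T T', T ⊆ T' → Gs ρ T ⊆ Gs ρ T'
  meas : ∀ ρ T, MeasurableSet T → MeasurableSet (Gs ρ T)
  equiv : ∀ ρ T y a, y * a ∈ Gs ρ T ↔ a ∈ Gs ρ {e | y * e ∈ T}
  dens : ∀ ρ : Option ι → ℝ, (∀ j, 0 ≤ ρ j) → ∀ T, MeasurableSet T →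
    G.ν (G.N ρ \ Gs ρ T) ≤ ENNReal.ofReal K * G.ν (G.N (sh ρ C') \ T)
  conn : ∀ ρ : Option ι → ℝ, (∀ j, 0 ≤ ρ j) → ∀ T, MeasurableSet T → ∀ a ∈ Gs ρ T,
    ∀ b ∈ Gs ρ T, a⁻¹ * b ∈ G.N (sh ρ (2 * G.C)) → Reach (G.lt ρ) T (2 * n) a b

theorem exists_connData (G : Geo S E V ι L) : Nonempty (ConnData G) := by
  obtain ⟨n, K, C', Gs, h1, h2, h3, h4, h5, h6, h7, h8⟩ := G.conn_can (2 * G.C)
    (by linarith [G.one_le_C])
  exact ⟨⟨n, K, C', Gs, h1, h2, h3, h4, h5, h6, h7, fun ρ hρ T hT a ha b hb hab =>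
    (h8 ρ hρ T hT a ha b hb hab).mono inter_subset_left⟩⟩

/-- good points: very typical with respect to some constant, which is the constant of the box at
this point -/
def GoodS (G : Geo S E V ι L) (𝒢 : ConnData G) (𝒟 : Set V) (Ψ : S → S) (ρ : Option ι → ℝ) (ω : ℝ)
    (Y : S) : Set E :=
  ⋃ c ∈ 𝒟, ({e | G.ν {y | y ∈ G.N ρ ∧ e * y * 1 ∈ {m | 2 * ω < ‖Wd G Ψ (Y * G.inc m) - c‖}} ≤
    ENNReal.ofReal (1 / 4) * G.ν (G.N ρ)} ∩ 𝒢.Gs ρ (TS G Ψ ρ c (4 * ω) Y))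

variable {G : Geo S E V ι L} {Λ : ℝ} {Ψ : S → S}

theorem Wd_meas' (hQ : QIe G Λ Ψ) (Y : S) (ω : ℝ) (c : V) :
    MeasurableSet {m : E | ω < ‖Wd G Ψ (Y * G.inc m) - c‖} := by
  have := Wd_meas hQ Y 1 {v | ω < ‖v - c‖}
  simp only [mul_one] at this
  exact this

theorem GoodS_meas (hQ : QIe G Λ Ψ) (𝒢 : ConnData G) {𝒟 : Set V} (h𝒟 : 𝒟.Countable)
    (ρ : Option ι → ℝ) (ω : ℝ) (Y : S) : MeasurableSet (GoodS G 𝒢 𝒟 Ψ ρ ω Y) := by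
  haveI := G.ν_mm
  haveI := G.ν_mi
  haveI := G.ν_sf
  haveI := G.ν_right
  refine MeasurableSet.biUnion h𝒟 fun c _ => MeasurableSet.inter ?_ (𝒢.meas _ _ (TS_meas hQ _ _ _ _))
  exact measurableSet_le (meas_section (Wd_meas' hQ Y _ c) (G.N_meas ρ) 1) measurable_const

/-- the constant of a good point is the constant of the box around it -/
theorem GoodS_const (𝒢 : ConnData G) {𝒟 : Set V} {ρ ρ' : Option ι → ℝ} {ω r ε : ℝ} {Y : S}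
    {n0 e' : E} (he : n0 * e' ∈ GoodS G 𝒢 𝒟 Ψ ρ ω Y) (hsub : ∀ y ∈ G.N ρ, e' * y ∈ G.N ρ') {c2 : V}
    (hc2 : IsC G Ψ r ω ε ρ' (Y * G.inc n0) c2) (hr : 0 ≤ r)
    (hε : ENNReal.ofReal ε * G.ν (G.N ρ') ≤ ENNReal.ofReal (1 / 4) * G.ν (G.N ρ))
    (hpos : 0 < G.ν (G.N ρ)) :
    e' ∈ 𝒢.Gs ρ (TS G Ψ ρ c2 (7 * ω) (Y * G.inc n0)) := by
  haveI := G.ν_mm
  haveI := G.ν_left
  obtain ⟨c, hc, h1, h2⟩ := mem_iUnion₂.1 he
  -- the constants agree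
  have hcc : ‖c - c2‖ ≤ 3 * ω := by
    have hb : G.ν {y | y ∈ G.N ρ ∧ ω < ‖Wd G Ψ (Y * G.inc n0 * G.inc (e' * y)) - c2‖} ≤
        ENNReal.ofReal (1 / 4) * G.ν (G.N ρ) := by
      refine le_trans ?_ ((hc2 1 (Or.inl (by rw [G.l_one]; exact hr))).trans hε)
      rw [← measure_preimage_mul G.ν e' {n | n ∈ G.N ρ' ∧ _}]
      refine measure_mono ?_
      rintro y ⟨hy1, hy2⟩
      exact ⟨hsub y hy1, by rw [mul_one]; exact hy2⟩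
    obtain ⟨y, hy, hy1, hy2⟩ : ∃ y ∈ G.N ρ, ¬ (2 * ω < ‖Wd G Ψ (Y * G.inc (n0 * e' * y * 1)) - c‖) ∧
        ¬ (ω < ‖Wd G Ψ (Y * G.inc n0 * G.inc (e' * y)) - c2‖) := by
      by_contra hno
      push Not at hno
      have h3 : G.N ρ ⊆ {y | y ∈ G.N ρ ∧ n0 * e' * y * 1 ∈
          {m | 2 * ω < ‖Wd G Ψ (Y * G.inc m) - c‖}} ∪
          {y | y ∈ G.N ρ ∧ ω < ‖Wd G Ψ (Y * G.inc n0 * G.inc (e' * y)) - c2‖} := by
        intro y hy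
        by_cases h4 : 2 * ω < ‖Wd G Ψ (Y * G.inc (n0 * e' * y * 1)) - c‖
        · exact Or.inl ⟨hy, h4⟩
        · push Not at h4
          exact Or.inr ⟨hy, hno y hy h4⟩
      have h4 := (measure_mono h3).trans ((measure_union_le _ _).trans (add_le_add h1 hb))
      rw [← add_mul, ← ENNReal.ofReal_add (by norm_num) (by norm_num)] at h4
      have h5 : ENNReal.ofReal (1 / 4 + 1 / 4) * G.ν (G.N ρ) < 1 * G.ν (G.N ρ) := by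
        refine (ENNReal.mul_lt_mul_iff_left hpos.ne' (G.ν_N_top ρ).ne).2 ?_
        rw [← ENNReal.ofReal_one]
        exact (ENNReal.ofReal_lt_ofReal_iff one_pos).2 (by norm_num)
      rw [one_mul] at h5
      exact absurd h4 (not_le.2 h5)
    push Not at hy1 hy2
    have h6 : Y * G.inc n0 * G.inc (e' * y) = Y * G.inc (n0 * e' * y * 1) := by
      simp only [map_mul, map_one, mul_one, mul_assoc]
    rw [h6] at hy2
    calc ‖c - c2‖ = ‖-(Wd G Ψ (Y * G.inc (n0 * e' * y * 1)) - c) +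
        (Wd G Ψ (Y * G.inc (n0 * e' * y * 1)) - c2)‖ := by congr 1; abel
      _ ≤ _ := (norm_add_le _ _).trans (by rw [norm_neg]; linarith)
  have h7 := (𝒢.equiv ρ _ n0 e').1 h2
  rw [TS_equiv'] at h7
  refine 𝒢.mono ρ _ _ ?_ h7
  have h8 := TS_const (G := G) (Ψ := Ψ) (ρ := ρ) (ω := 4 * ω) (g := Y * G.inc n0) hcc
  refine h8.trans (TS_mono (by linarith))

/-- **Good points are dense in all the boxes.** -/
theorem GoodS_dens (hQ : QIe G Λ Ψ) (𝒢 : ConnData G) {𝒟 : Set V} (h𝒟 : Dense 𝒟)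
    {ρ : Option ι → ℝ} (hρ : ∀ j, 0 ≤ ρ j) {ω r ε s : ℝ} (hω : 0 < ω) (hr : 0 ≤ r) (hε : 0 ≤ ε)
    {q Kn : ℕ} (hq : 0 < q) (hqω : 2 * G.C * Λ * (q * G.C + 1) ≤ ω)
    (hKn : ∀ j : ι, ρ (some j) ≤ (Kn * q : ℕ) * G.β j) (hs1 : 𝒢.C' ≤ s) (hs2 : G.C ≤ s) {Y : S}
    (hF : ∀ g, (∃ c, IsC G Ψ r ω ε (sh ρ s) g c) ∧ NFl G Ψ ω ε (sh ρ s) g) (e : E) :
    G.ν {n | n ∈ G.N ρ ∧ e * n ∉ GoodS G 𝒢 𝒟 Ψ ρ ω Y} ≤
      ENNReal.ofReal ((𝒢.K * (2 + Fintype.card ι * (Kn + 1)) + 4) * ε *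
        Real.exp (G.C * (1 + s))) * G.ν (G.N ρ) := by
  haveI := G.ν_mm
  haveI := G.ν_mi
  haveI := G.ν_sf
  haveI := G.ν_right
  have hs0 : 0 ≤ s := 𝒢.C'_nonneg.trans hs1
  have hK0 := 𝒢.K_nonneg
  obtain ⟨⟨c1, hc1⟩, hn1⟩ := hF (Y * G.inc e)
  obtain ⟨c, hc, hcc⟩ : ∃ c ∈ 𝒟, ‖c1 - c‖ ≤ ω := by
    obtain ⟨c, hc, hd⟩ := h𝒟.exists_dist_lt c1 hω
    exact ⟨c, hc, by rw [← dist_eq_norm]; exact hd.le⟩
  set g := Y * G.inc e with hg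
  have hρs : ∀ j, ρ j ≤ sh ρ s j := fun j => by simp only [sh]; linarith
  have hdbl := G.ν_dbl ρ hρ s hs0
  -- the typical part
  have h1 : G.ν (G.N ρ \ 𝒢.Gs ρ (TS G Ψ ρ c (4 * ω) g)) ≤
      ENNReal.ofReal (𝒢.K * (2 + Fintype.card ι * (Kn + 1)) * ε) * G.ν (G.N (sh ρ s)) := by
    refine (𝒢.dens ρ hρ _ (TS_meas hQ _ _ _ _)).trans ?_
    have h2 : G.N (sh ρ 𝒢.C') \ TS G Ψ ρ c (4 * ω) g ⊆ G.N (sh ρ s) \ TS G Ψ ρ c1 (3 * ω) g := by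
      rintro n ⟨hn, hn'⟩
      refine ⟨G.N_mono _ _ (fun j => by simp only [sh]; linarith) hn, fun h3 => hn' ?_⟩
      have h4 := TS_const (G := G) (Ψ := Ψ) (ρ := ρ) (ω := 3 * ω) (g := g) hcc h3
      exact TS_mono (by linarith) h4
    refine (mul_le_mul' le_rfl ((measure_mono h2).trans
      (TS_dens hQ hρs (hρ none) hr hε hq hqω hKn hc1 hn1))).trans (le_of_eq ?_)
    rw [← mul_assoc, ← ENNReal.ofReal_mul hK0]
    congr 2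
    ring
  -- the constant
  have h2 : G.ν {n | n ∈ G.N ρ ∧ ENNReal.ofReal (1 / 4) * G.ν (G.N ρ) <
      G.ν {y | y ∈ G.N ρ ∧ n * y * 1 ∈ {m | 2 * ω < ‖Wd G Ψ (g * G.inc m) - c‖}}} ≤
      ENNReal.ofReal (4 * ε) * G.ν (G.N (sh ρ s)) := by
    have hB := Wd_meas' hQ g (2 * ω) c
    have h3 := avg_box (ν := G.ν) hB (G.N_meas ρ) (G.N_meas ρ) (G.N_meas (sh ρ G.C)) 1
      (fun p hp q hq => G.N_mul ρ hρ p hp q hq)
    have h4 : G.ν {m | m ∈ G.N (sh ρ G.C) ∧ m * 1 ∈ {m | 2 * ω < ‖Wd G Ψ (g * G.inc m) - c‖}} ≤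
        ENNReal.ofReal ε * G.ν (G.N (sh ρ s)) := by
      refine le_trans (measure_mono ?_) (hc1 1 (Or.inl (by rw [G.l_one]; exact hr)))
      rintro m ⟨hm1, hm2⟩
      rw [mul_one] at hm2
      refine ⟨G.N_mono _ _ (fun j => by simp only [sh]; linarith) hm1, ?_⟩
      rw [mul_one]
      have hm3 : 2 * ω < ‖Wd G Ψ (g * G.inc m) - c‖ := hm2
      have h5 : ‖Wd G Ψ (g * G.inc m) - c‖ ≤ ‖Wd G Ψ (g * G.inc m) - c1‖ + ‖c1 - c‖ := by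
        calc ‖Wd G Ψ (g * G.inc m) - c‖ = ‖(Wd G Ψ (g * G.inc m) - c1) + (c1 - c)‖ := by
              congr 1; abel
          _ ≤ _ := norm_add_le _ _
      linarith
    have hδ0 : ENNReal.ofReal (1 / 4) * G.ν (G.N ρ) ≠ 0 :=
      mul_ne_zero (by simp) (G.ν_N_pos ρ hρ).ne'
    have hδt : ENNReal.ofReal (1 / 4) * G.ν (G.N ρ) ≠ ⊤ :=
      ENNReal.mul_ne_top ENNReal.ofReal_ne_top (G.ν_N_top ρ).ne
    refine (markov_set (G.N_meas ρ) (meas_section hB (G.N_meas ρ) 1) hδ0 hδt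
      (h3.trans (mul_le_mul' le_rfl h4))).trans (le_of_eq ?_)
    rw [ENNReal.div_eq_inv_mul, ENNReal.mul_inv (Or.inr (G.ν_N_top ρ).ne)
      (Or.inr (G.ν_N_pos ρ hρ).ne')]
    have h6 : (G.ν (G.N ρ))⁻¹ * G.ν (G.N ρ) = 1 :=
      ENNReal.inv_mul_cancel (G.ν_N_pos ρ hρ).ne' (G.ν_N_top ρ).ne
    have h7 : (ENNReal.ofReal (1 / 4))⁻¹ = ENNReal.ofReal 4 := by
      rw [← ENNReal.ofReal_inv_of_pos (by norm_num)]
      norm_num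
    rw [h7, ENNReal.ofReal_mul (by norm_num)]
    calc ENNReal.ofReal 4 * (G.ν (G.N ρ))⁻¹ *
          (G.ν (G.N ρ) * (ENNReal.ofReal ε * G.ν (G.N (sh ρ s))))
        = ENNReal.ofReal 4 * ENNReal.ofReal ε * G.ν (G.N (sh ρ s)) *
          ((G.ν (G.N ρ))⁻¹ * G.ν (G.N ρ)) := by ring
      _ = _ := by rw [h6, mul_one]
  have hsub : {n | n ∈ G.N ρ ∧ e * n ∉ GoodS G 𝒢 𝒟 Ψ ρ ω Y} ⊆
      (G.N ρ \ 𝒢.Gs ρ (TS G Ψ ρ c (4 * ω) g)) ∪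
      {n | n ∈ G.N ρ ∧ ENNReal.ofReal (1 / 4) * G.ν (G.N ρ) <
      G.ν {y | y ∈ G.N ρ ∧ n * y * 1 ∈ {m | 2 * ω < ‖Wd G Ψ (g * G.inc m) - c‖}}} := by
    rintro n ⟨hn1, hn2⟩
    by_contra h8
    rw [mem_union, not_or] at h8
    obtain ⟨h9, h10⟩ := h8
    apply hn2
    refine mem_iUnion₂.2 ⟨c, hc, ?_, ?_⟩
    · by_contra h11
      apply h10
      refine ⟨hn1, ?_⟩
      have h12 : ENNReal.ofReal (1 / 4) * G.ν (G.N ρ) < G.ν {y | y ∈ G.N ρ ∧ e * n * y * 1 ∈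
          {m | 2 * ω < ‖Wd G Ψ (Y * G.inc m) - c‖}} := not_le.1 h11
      refine h12.trans_le (measure_mono ?_)
      rintro y ⟨hy1, hy2⟩
      refine ⟨hy1, ?_⟩
      have hy3 : 2 * ω < ‖Wd G Ψ (Y * G.inc (e * n * y * 1)) - c‖ := hy2
      show 2 * ω < ‖Wd G Ψ (g * G.inc (n * y * 1)) - c‖
      have h13 : g * G.inc (n * y * 1) = Y * G.inc (e * n * y * 1) := by
        rw [hg]
        simp only [map_mul, map_one, mul_one, mul_assoc]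
      rw [h13]
      exact hy3
    · rw [𝒢.equiv, TS_equiv']
      by_contra h11
      exact h9 ⟨hn1, h11⟩
  refine (measure_mono hsub).trans ((measure_union_le _ _).trans ((add_le_add h1 h2).trans ?_))
  rw [← add_mul, ← ENNReal.ofReal_add (by positivity) (by positivity)]
  refine (mul_le_mul' le_rfl hdbl).trans (le_of_eq ?_)
  rw [← mul_assoc, ← ENNReal.ofReal_mul (by positivity)]
  congr 2
  ring

end Vale.P188.H532
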