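import Vale.Agent.P188.H532.Avg

/-!
# P188, route B: comparison of constants; links, for most locations
-/

set_option linter.all false

namespace Vale.P188.H532

open MeasureTheory Set

variable {S E V ι L : Type} [Group S] [Group E] [MeasurableSpace E] [NormedAddCommGroup V]
    [NormedSpace ℝ V] [Fintype ι] [DecidableEq ι] [Fintype L]

variable {G : Geo S E V ι L} {Λ : ℝ} {Ψ : S → S}

theorem IsC.mono {r r' ω ε : ℝ} {ρ : Option ι → ℝ} {g : S} {c : V} (h : IsC G Ψ r ω ε ρ g c)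
    (hr : r' ≤ r) : IsC G Ψ r' ω ε ρ g c :=
  fun h' hh => h h' (hh.imp (fun h1 => h1.trans hr) id)

/-- the basic estimate of `IsC` -/
theorem IsC.base {r ω ε : ℝ} {ρ : Option ι → ℝ} {g : S} {c : V} (h : IsC G Ψ r ω ε ρ g c)
    (hr : 0 ≤ r) : G.ν {n | n ∈ G.N ρ ∧ ω < ‖Wd G Ψ (g * G.inc n) - c‖} ≤
      ENNReal.ofReal ε * G.ν (G.N ρ) := by
  have := h 1 (Or.inl (by rw [G.l_one]; exact hr))
  simpa only [mul_one] using this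

/-- two small bad sets do not cover a box -/
theorem links_exists_good {B1 B2 N : Set E} {ν : Measure E} (h : ν (N ∩ B1) + ν (N ∩ B2) < ν N) :
    ∃ n ∈ N, n ∉ B1 ∧ n ∉ B2 := by
  by_contra hno
  push Not at hno
  have h1 : N ⊆ (N ∩ B1) ∪ (N ∩ B2) := by
    intro n hn
    by_cases h2 : n ∈ B1
    · exact Or.inl ⟨hn, h2⟩
    · exact Or.inr ⟨hn, hno n hn h2⟩
  exact absurd ((measure_mono h1).trans (measure_union_le _ _)) (not_le.2 h)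

/-- **Comparison of the constants of overlapping boxes.** -/
theorem IsC.comp {r r' ω ω' ε ε' : ℝ} {ρ ρ' : Option ι → ℝ} {g : S} {n0 : E} {c c' : V}
    (h : IsC G Ψ r ω ε ρ g c) (h' : IsC G Ψ r' ω' ε' ρ' (g * G.inc n0) c') (hr : 0 ≤ r)
    (hr' : 0 ≤ r') (hsub : ∀ n ∈ G.N ρ', n0 * n ∈ G.N ρ)
    (hM : ENNReal.ofReal ε * G.ν (G.N ρ) + ENNReal.ofReal ε' * G.ν (G.N ρ') < G.ν (G.N ρ')) :
    ‖c - c'‖ ≤ ω + ω' := by
  haveI := G.ν_mm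
  haveI := G.ν_left
  obtain ⟨n, hn, h1, h2⟩ : ∃ n ∈ G.N ρ', n ∉ {n | ω < ‖Wd G Ψ (g * G.inc n0 * G.inc n) - c‖} ∧
      n ∉ {n | ω' < ‖Wd G Ψ (g * G.inc n0 * G.inc n) - c'‖} := by
    refine links_exists_good (lt_of_le_of_lt (add_le_add ?_ (h'.base hr')) hM)
    refine le_trans ?_ (h.base hr)
    rw [← measure_preimage_mul G.ν n0 {n | n ∈ G.N ρ ∧ _}]
    refine measure_mono ?_
    rintro n ⟨hn, hn2⟩
    refine ⟨hsub n hn, ?_⟩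
    have hn3 : ω < ‖Wd G Ψ (g * G.inc n0 * G.inc n) - c‖ := hn2
    rw [map_mul, ← mul_assoc]
    exact hn3
  simp only [mem_setOf_eq, not_lt] at h1 h2
  calc ‖c - c'‖ = ‖-(Wd G Ψ (g * G.inc n0 * G.inc n) - c) +
      (Wd G Ψ (g * G.inc n0 * G.inc n) - c')‖ := by congr 1; abel
    _ ≤ _ := (norm_add_le _ _).trans (by rw [norm_neg]; linarith)

theorem ofReal_mul_lt {a : ℝ} {x : ENNReal} (ha : a < 1) (hx : x ≠ 0) (hxt : x ≠ ⊤) :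
    ENNReal.ofReal a * x < x := by
  conv_rhs => rw [← one_mul x]
  refine (ENNReal.mul_lt_mul_iff_left hx hxt).2 ?_
  rw [← ENNReal.ofReal_one]
  exact (ENNReal.ofReal_lt_ofReal_iff one_pos).2 ha

/-- comparison of constants, windows which differ by at most `s` -/
theorem IsC.near {r r' ω ε s : ℝ} {ρ ρ' : Option ι → ℝ} {g : S} {n0 : E} {c c' : V}
    (h : IsC G Ψ r ω ε ρ g c) (h' : IsC G Ψ r' ω ε ρ' (g * G.inc n0) c') (hr : 0 ≤ r)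
    (hr' : 0 ≤ r') (hε : 0 ≤ ε) (hs : 0 ≤ s) (hρ' : ∀ j, 0 ≤ ρ' j) (hle : ∀ j, ρ j ≤ sh ρ' s j)
    (hsub : ∀ n ∈ G.N ρ', n0 * n ∈ G.N ρ) (hM : ε * (Real.exp (G.C * (1 + s)) + 1) < 1) :
    ‖c - c'‖ ≤ 2 * ω := by
  have h1 := h.comp h' hr hr' hsub (by
    have h2 := (measure_mono (G.N_mono _ _ hle)).trans (G.ν_dbl ρ' hρ' s hs)
    have h3 : ENNReal.ofReal ε * G.ν (G.N ρ) + ENNReal.ofReal ε * G.ν (G.N ρ') ≤
        ENNReal.ofReal (ε * (Real.exp (G.C * (1 + s)) + 1)) * G.ν (G.N ρ') := by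
      refine (add_le_add (mul_le_mul' le_rfl h2) le_rfl).trans (le_of_eq ?_)
      rw [← mul_assoc, ← add_mul, ← ENNReal.ofReal_mul hε, ← ENNReal.ofReal_add (by positivity) hε]
      congr 2
      ring
    exact h3.trans_lt (ofReal_mul_lt hM (G.ν_N_pos ρ' hρ').ne' (G.ν_N_top ρ').ne))
  linarith

/-- comparison at the same location -/
theorem IsC.near' {r r' ω ε s : ℝ} {ρ ρ' : Option ι → ℝ} {g : S} {c c' : V}
    (h : IsC G Ψ r ω ε ρ g c) (h' : IsC G Ψ r' ω ε ρ' g c') (hr : 0 ≤ r)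
    (hr' : 0 ≤ r') (hε : 0 ≤ ε) (hs : 0 ≤ s) (hρ' : ∀ j, 0 ≤ ρ' j) (hle' : ∀ j, ρ' j ≤ ρ j)
    (hle : ∀ j, ρ j ≤ sh ρ' s j) (hM : ε * (Real.exp (G.C * (1 + s)) + 1) < 1) :
    ‖c - c'‖ ≤ 2 * ω := by
  have h2 : g * G.inc 1 = g := by rw [map_one, mul_one]
  rw [← h2] at h'
  exact h.near h' hr hr' hε hs hρ' hle (fun n hn => by
    rw [one_mul]; exact G.N_mono _ _ hle' hn) hM

/-- the numerical data of the density estimates -/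
structure NumD (G : Geo S E V ι L) (𝒢 : ConnData G) (Λ ω ε s : ℝ) (q Kn : ℕ) : Prop where
  ω_pos : 0 < ω
  ε_nonneg : 0 ≤ ε
  q_pos : 0 < q
  qω : 2 * G.C * Λ * (q * G.C + 1) ≤ ω
  s1 : 𝒢.C' ≤ s
  s2 : G.C ≤ s
  small : ε * Real.exp (G.C * (1 + s)) ≤ 1 / 4

/-- the total density -/
noncomputable def ε2 (G : Geo S E V ι L) (𝒢 : ConnData G) (ε s : ℝ) (Kn : ℕ) : ℝ :=
  (𝒢.K * (2 + Fintype.card ι * (Kn + 1)) + 4) * ε * Real.exp (G.C * (1 + s))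

theorem ε2_nonneg (𝒢 : ConnData G) {ε s : ℝ} (hε : 0 ≤ ε) (Kn : ℕ) : 0 ≤ ε2 G 𝒢 ε s Kn := by
  unfold ε2
  have := 𝒢.K_nonneg
  positivity

/-- the very typical points of the window `ρ` at `g` -/
def Av (G : Geo S E V ι L) (𝒢 : ConnData G) (Ψ : S → S) (ρ : Option ι → ℝ) (c : V) (ω : ℝ) (g : S) :
    Set E := 𝒢.Gs ρ (TS G Ψ ρ c (7 * ω) g) ∩ G.N ρ

theorem Av_meas (hQ : QIe G Λ Ψ) (𝒢 : ConnData G) (ρ : Option ι → ℝ) (c : V) (ω : ℝ) (g : S) :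
    MeasurableSet (Av G 𝒢 Ψ ρ c ω g) :=
  (𝒢.meas _ _ (TS_meas hQ _ _ _ _)).inter (G.N_meas _)

/-- **Links**, one level -/
theorem links_one (hQ : QIe G Λ Ψ) (𝒢 : ConnData G) {𝒟 : Set V} (h𝒟 : Dense 𝒟)
    (h𝒟c : 𝒟.Countable) {ω ε s : ℝ} {q Kn : ℕ} (hD : NumD G 𝒢 Λ ω ε s q Kn) {o : Option ι}
    {P ρ : Option ι → ℝ} {l x : ℝ} (h : Rel2 G o P ρ l)
    (hP : ∀ j, 0 ≤ P j) (hwin : ∀ j, |P (some j) + 3 * G.C - x * G.p j| ≤ G.δ0 * x)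
    (hn : P none + 3 * G.C ≤ G.δ0 * x) (hl : l ≤ G.δ0 * x)
    (hlP : ∀ j : ι, G.C * (l + 1) ≤ P (some j)) {X : Finset E}
    (hXU : ∀ y ∈ X, y ∈ G.U o (P o + l) (P none))
    (hXc : Real.exp (G.H o P l - G.C * (1 + G.C)) ≤ X.card)
    (hXd : ∀ y ∈ X, ∀ y' ∈ X, y ≠ y' → ∀ n ∈ G.N (sh P G.C), ∀ n' ∈ G.N (sh P G.C),
      n * y ≠ n' * y')
    (hKn : ∀ j : ι, sh (bump ρ o l 0) G.C (some j) ≤ (Kn * q : ℕ) * G.β j)
    (hF : ∀ g, (∃ c, IsC G Ψ 0 ω ε (sh (sh (bump ρ o l 0) G.C) s) g c) ∧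
      NFl G Ψ ω ε (sh (sh (bump ρ o l 0) G.C) s) g) (Y : S) {cc : S → V}
    (hcc : ∀ g, IsC G Ψ 0 ω ε (sh (sh (bump ρ o l 0) G.C) s) g (cc g)) {ε1 : ℝ} (hε1 : 0 < ε1) :
    G.ν {n0 | n0 ∈ G.N P ∧ ENNReal.ofReal (ε1 * X.card) * G.ν (G.N ρ) <
      ∑ y ∈ X, G.ν (G.N ρ \ {e | e * y ∈ Av G 𝒢 Ψ (sh (bump ρ o l 0) G.C) (cc (Y * G.inc n0)) ω
        (Y * G.inc n0)})} ≤
      ENNReal.ofReal (ε2 G 𝒢 ε s Kn * Real.exp G.M4 / ε1) * G.ν (G.N P) := by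
  haveI := G.ν_mm
  have hC := G.C_pos
  have hup : ∀ j, 0 ≤ sh (bump ρ o l 0) G.C j := fun j => by
    simp only [sh]; linarith [h.nonneg j, h.up_ge j]
  have hdens := GoodS_dens (Y := Y) hQ 𝒢 h𝒟 hup hD.ω_pos le_rfl hD.ε_nonneg hD.q_pos hD.qω hKn
    hD.s1 hD.s2 hF
  have hBm : MeasurableSet (GoodS G 𝒢 𝒟 Ψ (sh (bump ρ o l 0) G.C) ω Y)ᶜ :=
    (GoodS_meas hQ 𝒢 h𝒟c _ _ _).compl
  refine le_trans (measure_mono ?_) (avg_links h hP hwin hn hl hlP hXU hXc hXd hBm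
    (ε2_nonneg 𝒢 hD.ε_nonneg Kn) hε1 hdens)
  rintro n0 ⟨hn0, hlt⟩
  refine ⟨hn0, hlt.trans_le (Finset.sum_le_sum fun y hy => measure_mono ?_)⟩
  rintro e ⟨he, hey⟩
  refine ⟨he, fun hg => hey ?_⟩
  have hmem := h.mul_mem (hP o) (hP none) he (hXU y hy)
  have hg' : n0 * (e * y) ∈ GoodS G 𝒢 𝒟 Ψ (sh (bump ρ o l 0) G.C) ω Y := by
    rw [← mul_assoc]; exact hg
  refine ⟨GoodS_const 𝒢 hg' (fun y' hy' => ?_) (hcc _) le_rfl ?_ (G.ν_N_pos _ hup), hmem⟩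
  · refine G.N_mono _ _ (fun j => ?_) (G.N_mul _ hup _ hmem _ hy')
    have := hD.s2
    simp only [sh]
    linarith
  · refine (mul_le_mul' le_rfl (G.ν_dbl _ hup s (hC.le.trans hD.s2))).trans ?_
    rw [← mul_assoc, ← ENNReal.ofReal_mul hD.ε_nonneg]
    exact mul_le_mul' (ENNReal.ofReal_le_ofReal hD.small) le_rfl

/-- very typical points are dense in `N ρ` (level 0) -/
theorem Av_dens (hQ : QIe G Λ Ψ) (𝒢 : ConnData G) {ω ε s : ℝ} {q Kn : ℕ}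
    (hD : NumD G 𝒢 Λ ω ε s q Kn) {ρ ρ' : Option ι → ℝ} (hρ : ∀ j, 0 ≤ ρ j)
    (hρρ' : ∀ j, ρ j ≤ ρ' j) {s' : ℝ} (hs' : 0 ≤ s') (hρ's : ∀ j, ρ' j ≤ sh ρ s' j)
    (hKn : ∀ j : ι, ρ' (some j) ≤ (Kn * q : ℕ) * G.β j) {g : S} {c : V}
    (hc : IsC G Ψ 0 ω ε (sh ρ' s) g c) (hn : NFl G Ψ ω ε (sh ρ' s) g) :
    G.ν (G.N ρ \ Av G 𝒢 Ψ ρ' c ω g) ≤
      ENNReal.ofReal (ε2 G 𝒢 ε s Kn * Real.exp (G.C * (1 + s'))) * G.ν (G.N ρ) := by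
  have hK0 := 𝒢.K_nonneg
  have hε := hD.ε_nonneg
  have hs0 : 0 ≤ s := 𝒢.C'_nonneg.trans hD.s1
  have hρ' : ∀ j, 0 ≤ ρ' j := fun j => (hρ j).trans (hρρ' j)
  have h0 : G.N ρ \ Av G 𝒢 Ψ ρ' c ω g ⊆ G.N ρ' \ 𝒢.Gs ρ' (TS G Ψ ρ' c (7 * ω) g) := by
    rintro n ⟨hn, hn'⟩
    have := G.N_mono _ _ hρρ' hn
    exact ⟨this, fun h => hn' ⟨h, this⟩⟩
  refine (measure_mono h0).trans ((𝒢.dens ρ' hρ' _ (TS_meas hQ _ _ _ _)).trans ?_)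
  have h2 : G.N (sh ρ' 𝒢.C') \ TS G Ψ ρ' c (7 * ω) g ⊆ G.N (sh ρ' s) \ TS G Ψ ρ' c (3 * ω) g := by
    rintro n ⟨hn, hn'⟩
    have := hD.s1
    have hω := hD.ω_pos
    exact ⟨G.N_mono _ _ (fun j => by simp only [sh]; linarith) hn,
      fun h3 => hn' (TS_mono (by linarith) h3)⟩
  have hle : ∀ j, ρ' j ≤ sh ρ' s j := fun j => by simp only [sh]; linarith
  refine (mul_le_mul' le_rfl ((measure_mono h2).trans
    (TS_dens hQ hle (hρ' none) le_rfl hε hD.q_pos hD.qω hKn hc hn))).trans ?_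
  have h3 : G.ν (G.N (sh ρ' s)) ≤
      ENNReal.ofReal (Real.exp (G.C * (1 + s)) * Real.exp (G.C * (1 + s'))) * G.ν (G.N ρ) := by
    refine (G.ν_dbl ρ' hρ' s hs0).trans ?_
    rw [ENNReal.ofReal_mul (Real.exp_pos _).le, mul_assoc]
    exact mul_le_mul' le_rfl ((measure_mono (G.N_mono _ _ hρ's)).trans (G.ν_dbl ρ hρ s' hs'))
  refine (mul_le_mul' le_rfl (mul_le_mul' le_rfl h3)).trans ?_
  rw [← mul_assoc, ← mul_assoc, ← ENNReal.ofReal_mul hK0, ← ENNReal.ofReal_mul (by positivity)]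
  refine mul_le_mul' (ENNReal.ofReal_le_ofReal ?_) le_rfl
  unfold ε2
  have h4 : 0 ≤ 4 * ε * (Real.exp (G.C * (1 + s)) * Real.exp (G.C * (1 + s'))) := by positivity
  nlinarith

/-- the constant of the small box at `Y n0` is the constant of the big box, for most `n0` -/
theorem const_rel (hQ : QIe G Λ Ψ) {ω ε : ℝ} (hε : 0 ≤ ε) {P ρ : Option ι → ℝ}
    (hP : ∀ j, 0 ≤ P j) (hρ : ∀ j, 0 ≤ ρ j) (hρP : ∀ j, ρ j ≤ P j) {Y : S} {c c'' : V}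
    (hc : IsC G Ψ 0 ω ε (sh P G.C) Y c'') (hcc : ‖c'' - c‖ ≤ 2 * ω) :
    G.ν {n0 | n0 ∈ G.N P ∧ ENNReal.ofReal (1 / 4) * G.ν (G.N ρ) <
      G.ν {n | n ∈ G.N ρ ∧ 3 * ω < ‖Wd G Ψ (Y * G.inc n0 * G.inc n) - c‖}} ≤
      ENNReal.ofReal (4 * ε * Real.exp (G.C * (1 + G.C))) * G.ν (G.N P) := by
  haveI := G.ν_mm
  haveI := G.ν_mi
  haveI := G.ν_sf
  haveI := G.ν_right
  have hC := G.C_pos
  have hB := Wd_meas' hQ Y (3 * ω) c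
  have h3 := avg_box (ν := G.ν) hB (G.N_meas P) (G.N_meas ρ) (G.N_meas (sh P G.C)) 1
    (fun p hp q hq => G.N_mul P hP p hp q (G.N_mono _ _ hρP hq))
  have h4 : G.ν {m | m ∈ G.N (sh P G.C) ∧ m * 1 ∈ {m | 3 * ω < ‖Wd G Ψ (Y * G.inc m) - c‖}} ≤
      ENNReal.ofReal ε * G.ν (G.N (sh P G.C)) := by
    refine le_trans (measure_mono ?_) (hc.base le_rfl)
    rintro m ⟨hm1, hm2⟩
    rw [mul_one] at hm2
    refine ⟨hm1, ?_⟩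
    have hm3 : 3 * ω < ‖Wd G Ψ (Y * G.inc m) - c‖ := hm2
    have h5 : ‖Wd G Ψ (Y * G.inc m) - c‖ ≤ ‖Wd G Ψ (Y * G.inc m) - c''‖ + ‖c'' - c‖ := by
      calc ‖Wd G Ψ (Y * G.inc m) - c‖ = ‖(Wd G Ψ (Y * G.inc m) - c'') + (c'' - c)‖ := by
            congr 1; abel
        _ ≤ _ := norm_add_le _ _
    linarith
  have hρ0 := G.ν_N_pos ρ hρ
  have hρt := G.ν_N_top ρ
  have hδ0 : ENNReal.ofReal (1 / 4) * G.ν (G.N ρ) ≠ 0 := mul_ne_zero (by simp) hρ0.ne'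
  have hδt : ENNReal.ofReal (1 / 4) * G.ν (G.N ρ) ≠ ⊤ :=
    ENNReal.mul_ne_top ENNReal.ofReal_ne_top hρt.ne
  have h5 := h4.trans (mul_le_mul' le_rfl (G.ν_dbl P hP _ hC.le))
  have h6 := markov_set (G.N_meas P) (meas_section hB (G.N_meas ρ) 1) hδ0 hδt
    (h3.trans (mul_le_mul' le_rfl h5))
  refine le_trans (le_of_eq ?_) (h6.trans ?_)
  · congr 1
    ext n0
    simp only [mem_setOf_eq, mul_one, map_mul, mul_assoc]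
  rw [ENNReal.div_le_iff hδ0 hδt]
  refine le_of_eq ?_
  have h7 : ENNReal.ofReal (4 * ε * Real.exp (G.C * (1 + G.C))) * ENNReal.ofReal (1 / 4) =
      ENNReal.ofReal ε * ENNReal.ofReal (Real.exp (G.C * (1 + G.C))) := by
    rw [← ENNReal.ofReal_mul (by positivity), ← ENNReal.ofReal_mul hε]
    congr 1
    ring
  calc G.ν (G.N ρ) * (ENNReal.ofReal ε * (ENNReal.ofReal (Real.exp (G.C * (1 + G.C))) *
        G.ν (G.N P))) = ENNReal.ofReal ε * ENNReal.ofReal (Real.exp (G.C * (1 + G.C))) *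
        (G.ν (G.N ρ) * G.ν (G.N P)) := by ring
    _ = _ := by rw [← h7]; ring

end Vale.P188.H532
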