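import Vale.Agent.P188.H532.Input

/-!
# P188, route B: one location (interface of the theorem LOC)
-/

set_option linter.all false

namespace Vale.P188.H532

open MeasureTheory Set

variable {S E V ι L : Type} [Group S] [Group E] [MeasurableSpace E] [NormedAddCommGroup V]
    [NormedSpace ℝ V] [Fintype ι] [DecidableEq ι] [Fintype L]

/-- `ω` is small compared with the scale `x`, large compared with constants, sublinear errors at scale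
`x` and the neutral extent `r0` -/
structure Sc (G : Geo S E V ι L) (K x ω r0 : ℝ) : Prop where
  one_le : 1 ≤ K
  ω_ge : K ≤ ω
  r0_nonneg : 0 ≤ r0
  r0_le : K * (r0 + 1) ≤ ω
  x_ge : K * ω ≤ x
  er_le : K * G.er (K * x) ≤ ω
  x_exp : K * x ≤ Real.exp (ω / K)

theorem Sc.mono {G : Geo S E V ι L} {K K' x ω r0 : ℝ} (h : Sc G K' x ω r0) (h1 : 1 ≤ K)
    (hK : K ≤ K') : Sc G K x ω r0 := by
  have hω : 0 ≤ ω := by linarith [h.one_le, h.ω_ge]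
  have hx : 0 ≤ x := le_trans (mul_nonneg (by linarith) hω) h.x_ge
  have her : 0 ≤ G.er (K * x) := le_trans (by linarith [G.one_le_C]) (G.er_ge _)
  refine ⟨h1, hK.trans h.ω_ge, h.r0_nonneg, ?_, ?_, ?_, ?_⟩
  · exact (mul_le_mul_of_nonneg_right hK (by linarith [h.r0_nonneg])).trans h.r0_le
  · exact (mul_le_mul_of_nonneg_right hK hω).trans h.x_ge
  · refine le_trans (mul_le_mul hK ?_ her (by linarith)) h.er_le
    exact G.er_mono (mul_le_mul_of_nonneg_right hK hx)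
  · refine (mul_le_mul_of_nonneg_right hK hx).trans (h.x_exp.trans (Real.exp_le_exp.2 ?_))
    exact div_le_div_of_nonneg_left hω (by linarith) hK

/-- confined paths: fewer than `M` steps of length `≤ A`, all heights `≤ H` -/
def CP (G : Geo S E V ι L) (A : ℝ) (H : ι → ℝ) (M : ℝ) (u v : S) : Prop :=
  ∃ (m : ℕ) (w : ℕ → S), (m : ℝ) + 1 ≤ M ∧ w 0 = u ∧ w m = v ∧
    (∀ i < m, G.l ((w i)⁻¹ * w (i + 1)) ≤ A) ∧ ∀ i ≤ m, ∀ j, G.b j (G.θ (w i)) ≤ H j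

/-- the data at one location `g`: windows `ρ + l_k e_i`, constants `c k`, sets `A k` of very typical
points of the window `k`, separated sets `X k` of the ray group `U_i` -/
structure LocData (G : Geo S E V ι L) (Λ : ℝ) (Ψ : S → S) (i : ι) (ρ : Option ι → ℝ)
    (x ω C' ε1 : ℝ) (n : ℕ) (lk : ℕ → ℝ) (c : ℕ → V) (A : ℕ → Set E) (X : ℕ → Finset E) (g : S) :
    Prop where
  qi : QIe G Λ Ψ
  win : ∀ j, |ρ (some j) - x * G.p j| ≤ (G.δ0 / 2) * x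
  lk_zero : lk 0 = 0
  lk_mono : Monotone lk
  lk_step : ∀ k, lk (k + 1) ≤ lk k + ω
  meas : ∀ k, MeasurableSet (A k)
  line : ∀ k ≤ n, ∀ e ∈ A k, ∀ (j : ι) (m : ℕ),
    m * G.b j (G.θ (G.t j)) ≤ bump ρ (some i) (lk k) 0 (some j) + G.b j (G.θ (G.t j)) →
    ‖Wd G Ψ (g * G.inc e * G.t j ^ m) - c k‖ ≤ ω
  conn : ∀ k ≤ n, ∀ a ∈ A k, ∀ a' ∈ A k, CP G (Λ * (G.C + 1))
    (fun j => G.b j (G.θ g + c k) + bump ρ (some i) (lk k) 0 (some j) + ω) (Real.exp ω)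
    (Ψ (g * G.inc a)) (Ψ (g * G.inc a'))
  h0 : G.ν (G.N ρ \ A 0) ≤ ENNReal.ofReal (1 / 8) * G.ν (G.N ρ)
  X_U : ∀ k ≤ n, ∀ y ∈ X k, y ∈ G.U (some i) (ρ (some i) + lk k) (ρ none)
  X_card : ∀ k ≤ n, Real.exp (G.H (some i) ρ (lk k) - C') ≤ (X k).card
  X_dis : ∀ k ≤ n, ∀ y ∈ X k, ∀ y' ∈ X k, y ≠ y' → ∀ e ∈ G.N ρ, ∀ e' ∈ G.N ρ, e * y ≠ e' * y'
  link : ∀ k ≤ n, ∑ y ∈ X k, G.ν (G.N ρ \ {e | e * y ∈ A k}) ≤
    ENNReal.ofReal (ε1 * (X k).card) * G.ν (G.N ρ)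

/-- **LOC** : the constants do not change when the ray `i` is extended. -/
def LOC (G : Geo S E V ι L) (Λ C' : ℝ) : Prop :=
  ∃ K δ1 : ℝ, 0 < δ1 ∧ ∀ (Ψ : S → S) (i : ι) (ρ : Option ι → ℝ) (x ω ε1 : ℝ) (n : ℕ) (lk : ℕ → ℝ)
    (c : ℕ → V) (A : ℕ → Set E) (X : ℕ → Finset E) (g : S), Sc G K x ω (ρ none) →
    LocData G Λ Ψ i ρ x ω C' ε1 n lk c A X g → lk n ≤ δ1 * x → (n + 1) * ε1 ≤ 1 / 8 → 0 ≤ ε1 →
    ∀ k ≤ n, ‖c k - c 0‖ ≤ K * ω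

end Vale.P188.H532
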