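import Vale.Agent.P188.H532.Loc

/-!
# P188, route B: heights along images of paths, confined paths
-/

set_option linter.all false

namespace Vale.P188.H532

open MeasureTheory Set

variable {S E V ι L : Type} [Group S] [Group E] [MeasurableSpace E] [NormedAddCommGroup V]
    [NormedSpace ℝ V] [Fintype ι] [DecidableEq ι] [Fintype L]

section basic

variable (G : Geo S E V ι L)

theorem Geo.C_pos : 0 < G.C := lt_of_lt_of_le one_pos G.one_le_C

theorem Geo.C_nonneg : 0 ≤ G.C := G.C_pos.le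

theorem Geo.er_pos (r : ℝ) : 0 < G.er r := lt_of_lt_of_le G.C_pos (G.er_ge r)

theorem Geo.θ_one : G.θ 1 = 0 := by
  have := G.θ_mul 1 1
  rw [mul_one] at this
  have h : G.θ 1 + G.θ 1 = G.θ 1 + 0 := by rw [← this, add_zero]
  exact add_left_cancel h

theorem Geo.θ_inv (g : S) : G.θ g⁻¹ = - G.θ g := by
  have := G.θ_mul g⁻¹ g
  rw [inv_mul_cancel, G.θ_one] at this
  exact eq_neg_of_add_eq_zero_left this.symm

theorem Geo.θ_pow (g : S) (n : ℕ) : G.θ (g ^ n) = (n : ℝ) • G.θ g := by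
  induction n with
  | zero => simp [G.θ_one]
  | succ n ih =>
    rw [pow_succ, G.θ_mul, ih]
    push_cast
    rw [add_smul, one_smul]

theorem Geo.l_pow (g : S) (n : ℕ) : G.l (g ^ n) ≤ n * G.l g := by
  induction n with
  | zero => simp [G.l_one]
  | succ n ih =>
    rw [pow_succ]
    refine (G.l_mul _ _).trans ?_
    push_cast
    linarith

theorem Geo.l_tpow (i : ι) (n : ℕ) : G.l (G.t i ^ n) ≤ n * G.C :=
  (G.l_pow _ n).trans (mul_le_mul_of_nonneg_left (G.t_le i) (Nat.cast_nonneg n))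

/-- the speed of `t i` -/
noncomputable def Geo.β (i : ι) : ℝ := G.b i (G.θ (G.t i))

theorem Geo.β_pos (i : ι) : 0 < G.β i := G.t_pos i

theorem Geo.b_θ_le (j : ι) (g : S) : |G.b j (G.θ g)| ≤ G.C ^ 2 * G.l g := by
  refine (G.b_le j _).trans ?_
  have := mul_le_mul_of_nonneg_left (G.θ_le g) G.C_nonneg
  nlinarith

theorem Geo.β_le (i : ι) : G.β i ≤ G.C ^ 3 := by
  refine (le_abs_self _).trans ((G.b_θ_le i _).trans ?_)
  have := mul_le_mul_of_nonneg_left (G.t_le i) (sq_nonneg G.C)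
  calc G.C ^ 2 * G.l (G.t i) ≤ G.C ^ 2 * G.C := this
    _ = _ := by ring

/-- a lower bound of the speeds -/
theorem Geo.exists_βm : ∃ βm : ℝ, 0 < βm ∧ βm ≤ 1 ∧ ∀ i, βm ≤ G.β i := by
  classical
  let f : Option ι → ℝ := fun o => o.elim 1 fun i => min 1 (G.β i)
  have hne : (Finset.univ : Finset (Option ι)).Nonempty := ⟨none, Finset.mem_univ _⟩
  have hf : ∀ o, 0 < f o := by
    rintro (_ | i)
    · exact one_pos
    · exact lt_min one_pos (G.β_pos i)
  obtain ⟨o, _, ho⟩ := Finset.exists_min_image Finset.univ f hne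
  refine ⟨f o, hf o, ho none (Finset.mem_univ _), fun i => ?_⟩
  exact (ho (some i) (Finset.mem_univ _)).trans (min_le_right _ _)

end basic

variable {G : Geo S E V ι L} {Λ : ℝ} {Ψ : S → S}

theorem QIe.nonneg (hQ : QIe G Λ Ψ) : 0 ≤ Λ := by linarith [hQ.one_le]

theorem Wd_lip (hQ : QIe G Λ Ψ) (z g : S) :
    ‖Wd G Ψ (z * g) - Wd G Ψ z‖ ≤ 2 * G.C * Λ * (G.l g + 1) := by
  have h1 : Wd G Ψ (z * g) - Wd G Ψ z = G.θ ((Ψ z)⁻¹ * Ψ (z * g)) - G.θ g := by
    unfold Wd
    rw [G.θ_mul z g, G.θ_mul (Ψ z)⁻¹, G.θ_inv]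
    abel
  rw [h1]
  have h2 := (G.θ_le ((Ψ z)⁻¹ * Ψ (z * g))).trans
    (mul_le_mul_of_nonneg_left (hQ.lip z g) G.C_nonneg)
  have h3 := G.θ_le g
  have h4 : G.C * G.l g ≤ G.C * (Λ * (G.l g + 1)) := by
    refine mul_le_mul_of_nonneg_left ?_ G.C_nonneg
    have := G.l_nonneg g
    nlinarith [hQ.one_le]
  calc ‖G.θ ((Ψ z)⁻¹ * Ψ (z * g)) - G.θ g‖ ≤ ‖G.θ ((Ψ z)⁻¹ * Ψ (z * g))‖ + ‖G.θ g‖ := norm_sub_le _ _
    _ ≤ G.C * (Λ * (G.l g + 1)) + G.C * (Λ * (G.l g + 1)) := by linarith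
    _ = _ := by ring

theorem θΨ (G : Geo S E V ι L) (Ψ : S → S) (z : S) : G.θ (Ψ z) = G.θ z + Wd G Ψ z := by
  unfold Wd
  abel

/-! ### confined paths -/

theorem CP.mono {A A' : ℝ} {H H' : ι → ℝ} {M M' : ℝ} {u v : S} (h : CP G A H M u v)
    (hA : A ≤ A') (hH : ∀ j, H j ≤ H' j) (hM : M ≤ M') : CP G A' H' M' u v := by
  obtain ⟨m, w, h1, h2, h3, h4, h5⟩ := h
  exact ⟨m, w, h1.trans hM, h2, h3, fun i hi => (h4 i hi).trans hA,
    fun i hi j => (h5 i hi j).trans (hH j)⟩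

theorem CP.left {A : ℝ} {H : ι → ℝ} {M : ℝ} {u v : S} (h : CP G A H M u v) (j : ι) :
    G.b j (G.θ u) ≤ H j := by
  obtain ⟨m, w, h1, h2, h3, h4, h5⟩ := h
  rw [← h2]
  exact h5 0 (Nat.zero_le _) j

theorem CP.right {A : ℝ} {H : ι → ℝ} {M : ℝ} {u v : S} (h : CP G A H M u v) (j : ι) :
    G.b j (G.θ v) ≤ H j := by
  obtain ⟨m, w, h1, h2, h3, h4, h5⟩ := h
  rw [← h3]
  exact h5 m le_rfl j

theorem CP.refl {A : ℝ} {H : ι → ℝ} {M : ℝ} {u : S} (hM : 1 ≤ M) (hH : ∀ j, G.b j (G.θ u) ≤ H j) :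
    CP G A H M u u := by
  refine ⟨0, fun _ => u, by simpa using hM, rfl, rfl, fun i hi => absurd hi (Nat.not_lt_zero i),
    fun i _ j => hH j⟩

theorem CP.symm {A : ℝ} {H : ι → ℝ} {M : ℝ} {u v : S} (h : CP G A H M u v) : CP G A H M v u := by
  obtain ⟨m, w, h1, h2, h3, h4, h5⟩ := h
  refine ⟨m, fun i => w (m - i), h1, by simpa using h3, by simpa using h2, fun i hi => ?_,
    fun i hi j => h5 _ (Nat.sub_le _ _) j⟩
  have h6 := h4 (m - (i + 1)) (by omega)
  have h7 : m - (i + 1) + 1 = m - i := by omega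
  rw [h7] at h6
  have h8 : (w (m - i))⁻¹ * w (m - (i + 1)) = ((w (m - (i + 1)))⁻¹ * w (m - i))⁻¹ := by group
  rw [h8, G.l_inv]
  exact h6

theorem CP.trans {A : ℝ} {H : ι → ℝ} {M M' : ℝ} {u v x : S} (h : CP G A H M u v)
    (h' : CP G A H M' v x) : CP G A H (M + M') u x := by
  obtain ⟨m, w, h1, h2, h3, h4, h5⟩ := h
  obtain ⟨m', w', h1', h2', h3', h4', h5'⟩ := h'
  refine ⟨m + m', fun i => if i ≤ m then w i else w' (i - m), ?_, ?_, ?_, ?_, ?_⟩
  · push_cast
    linarith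
  · simp [h2]
  · by_cases h : m' = 0
    · subst h
      simp only [add_zero, le_refl, if_true]
      rw [h3, ← h2', h3']
    · have : ¬ (m + m' ≤ m) := by omega
      simp only [this, if_false]
      rw [Nat.add_sub_cancel_left, h3']
  · intro i hi
    by_cases h : i + 1 ≤ m
    · have h6 : i ≤ m := by omega
      simp only [h, h6, if_true]
      exact h4 i (by omega)
    · by_cases h6 : i ≤ m
      · have h7 : i = m := by omega
        subst h7
        simp only [le_refl, if_true, h, if_false]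
        have h8 : i + 1 - i = 0 + 1 := by omega
        rw [h3, h8, ← h2']
        exact h4' 0 (by omega)
      · simp only [h, h6, if_false]
        have h8 : i + 1 - m = (i - m) + 1 := by omega
        rw [h8]
        exact h4' (i - m) (by omega)
  · intro i hi j
    by_cases h : i ≤ m
    · simp only [h, if_true]
      exact h5 i h j
    · simp only [h, if_false]
      exact h5' (i - m) (by omega) j

/-- the image of a path -/
theorem CP.of_path (hQ : QIe G Λ Ψ) (p : ℕ → S) (m : ℕ) {H : ι → ℝ}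
    (hp : ∀ i < m, G.l ((p i)⁻¹ * p (i + 1)) ≤ G.C)
    (hH : ∀ i ≤ m, ∀ j, G.b j (G.θ (Ψ (p i))) ≤ H j) :
    CP G (Λ * (G.C + 1)) H (m + 1) (Ψ (p 0)) (Ψ (p m)) := by
  refine ⟨m, fun i => Ψ (p i), le_rfl, rfl, rfl, fun i hi => ?_, fun i hi j => hH i hi j⟩
  have h1 := hQ.lip (p i) ((p i)⁻¹ * p (i + 1))
  rw [mul_inv_cancel_left] at h1
  refine h1.trans (mul_le_mul_of_nonneg_left ?_ hQ.nonneg)
  linarith [hp i hi]

/-- a path of bounded steps from `z` to `z g`, with bounded deviation -/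
theorem CP.short (hQ : QIe G Λ Ψ) (z g : S) {H : ι → ℝ} {M : ℝ} (hM : G.l g + 2 ≤ M)
    (hH : ∀ g' : S, G.l g' ≤ G.C * (G.l g + 1) → ∀ j, G.b j (G.θ (Ψ (z * g'))) ≤ H j) :
    CP G (Λ * (G.C + 1)) H M (Ψ z) (Ψ (z * g)) := by
  obtain ⟨p, hp0, hp1, hp2⟩ := G.l_path g
  have hlen : ∀ i, G.l (p i) ≤ G.C * i := by
    intro i
    induction i with
    | zero => simp [hp0, G.l_one]
    | succ i ih =>
      have : p (i + 1) = p i * ((p i)⁻¹ * p (i + 1)) := by group
      rw [this]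
      refine (G.l_mul _ _).trans ?_
      have := hp2 i
      push_cast
      nlinarith
  have h := CP.of_path (H := H) hQ (fun i => z * p i) ⌈G.l g⌉₊ (fun i hi => ?_) (fun i hi j => ?_)
  · have h2 := (Nat.ceil_lt_add_one (G.l_nonneg g)).le
    have h3 := h.mono le_rfl (fun j => le_rfl) (M' := M) (by linarith)
    simpa [hp0, hp1] using h3
  · have : (z * p i)⁻¹ * (z * p (i + 1)) = (p i)⁻¹ * p (i + 1) := by group
    rw [this]
    exact hp2 i
  · refine hH (p i) ((hlen i).trans (mul_le_mul_of_nonneg_left ?_ G.C_nonneg)) j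
    have h2 : (i : ℝ) ≤ (⌈G.l g⌉₊ : ℝ) := by exact_mod_cast hi
    exact h2.trans (Nat.ceil_lt_add_one (G.l_nonneg g)).le

/-- change of the crossed homomorphism along a confined path -/
theorem CP.D_le {A : ℝ} {H : ι → ℝ} {M : ℝ} {u v : S} (h : CP G A H M u v) (j : ι) :
    ‖G.D j v - G.D j u‖ ≤ M * (G.C * Real.exp (G.C * A) * Real.exp (H j)) := by
  obtain ⟨m, w, h1, h2, h3, h4, h5⟩ := h
  have key : ∀ i ≤ m, ‖G.D j (w i) - G.D j (w 0)‖ ≤
      i * (G.C * Real.exp (G.C * A) * Real.exp (H j)) := by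
    intro i
    induction i with
    | zero => intro _; simp
    | succ i ih =>
      intro hi
      have h6 := ih (by omega)
      have h7 : G.D j (w (i + 1)) = G.D j (w i) + G.χ j (w i) * G.D j ((w i)⁻¹ * w (i + 1)) := by
        rw [← G.D_mul, mul_inv_cancel_left]
      have h8 : ‖G.χ j (w i) * G.D j ((w i)⁻¹ * w (i + 1))‖ ≤
          G.C * Real.exp (G.C * A) * Real.exp (H j) := by
        rw [norm_mul, G.χ_norm, mul_comm]
        have h9 := G.D_le j ((w i)⁻¹ * w (i + 1))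
        have h10 : Real.exp (G.C * G.l ((w i)⁻¹ * w (i + 1))) ≤ Real.exp (G.C * A) :=
          Real.exp_le_exp.2 (mul_le_mul_of_nonneg_left (h4 i (by omega)) G.C_nonneg)
        have h11 : Real.exp (G.b j (G.θ (w i))) ≤ Real.exp (H j) :=
          Real.exp_le_exp.2 (h5 i (by omega) j)
        have h12 : ‖G.D j ((w i)⁻¹ * w (i + 1))‖ ≤ G.C * Real.exp (G.C * A) :=
          h9.trans (mul_le_mul_of_nonneg_left h10 G.C_nonneg)
        exact mul_le_mul h12 h11 (Real.exp_pos _).le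
          (mul_nonneg G.C_nonneg (Real.exp_pos _).le)
      have h13 : G.D j (w (i + 1)) - G.D j (w 0) =
          (G.D j (w i) - G.D j (w 0)) + G.χ j (w i) * G.D j ((w i)⁻¹ * w (i + 1)) := by
        rw [h7]; ring
      rw [h13]
      refine (norm_add_le _ _).trans ?_
      push_cast
      linarith
  rw [← h2, ← h3]
  refine (key m le_rfl).trans (mul_le_mul_of_nonneg_right (by linarith) ?_)
  exact mul_nonneg (mul_nonneg G.C_nonneg (Real.exp_pos _).le) (Real.exp_pos _).le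

end Vale.P188.H532
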