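import Vale.Agent.P188.H532.Path

/-!
# P188, route B: slides between typical points
-/

set_option linter.all false

namespace Vale.P188.H532

open MeasureTheory Set

variable {S E V ι L : Type} [Group S] [Group E] [MeasurableSpace E] [NormedAddCommGroup V]
    [NormedSpace ℝ V] [Fintype ι] [DecidableEq ι] [Fintype L]

/-- typical points of the window `ρ`, with constant `c` and error `ω` -/
structure Typ (G : Geo S E V ι L) (Ψ : S → S) (ρ : Option ι → ℝ) (c : V) (ω : ℝ) (z : S) :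
    Prop where
  base : ‖Wd G Ψ z - c‖ ≤ ω
  line : ∀ (j : ι) (m : ℕ), m * G.β j ≤ ρ (some j) + G.β j → ‖Wd G Ψ (z * G.t j ^ m) - c‖ ≤ ω
  neut : ∀ y ∈ G.Y0 (ρ none), ‖Wd G Ψ (z * G.inc y) - c‖ ≤ ω

variable {G : Geo S E V ι L} {Λ : ℝ} {Ψ : S → S}

theorem Typ.mono {ρ ρ' : Option ι → ℝ} {c : V} {ω ω' : ℝ} {z : S} (h : Typ G Ψ ρ' c ω z)
    (hρ : ∀ j : ι, ρ (some j) ≤ ρ' (some j)) (hY : G.Y0 (ρ none) ⊆ G.Y0 (ρ' none)) (hω : ω ≤ ω') :
    Typ G Ψ ρ c ω' z :=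
  ⟨h.base.trans hω, fun j m hm => (h.line j m (by linarith [hρ j])).trans hω,
    fun y hy => (h.neut y (hY hy)).trans hω⟩

theorem Typ.const {ρ : Option ι → ℝ} {c c' : V} {ω ω' : ℝ} {z : S} (h : Typ G Ψ ρ c ω z)
    (hc : ‖c - c'‖ ≤ ω') : Typ G Ψ ρ c' (ω + ω') z := by
  have key : ∀ v : V, ‖v - c‖ ≤ ω → ‖v - c'‖ ≤ ω + ω' := by
    intro v hv
    calc ‖v - c'‖ = ‖(v - c) + (c - c')‖ := by congr 1; abel
      _ ≤ _ := (norm_add_le _ _).trans (add_le_add hv hc)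
  exact ⟨key _ h.base, fun j m hm => key _ (h.line j m hm), fun y hy => key _ (h.neut y hy)⟩

theorem b_W_le (G : Geo S E V ι L) {v c : V} {ω : ℝ} (h : ‖v - c‖ ≤ ω) (j : ι) :
    G.b j v ≤ G.b j c + G.C * ω := by
  have h1 := (le_abs_self _).trans (G.b_le j (v - c))
  rw [map_sub] at h1
  have h2 := mul_le_mul_of_nonneg_left h G.C_nonneg
  linarith

theorem b_W_ge (G : Geo S E V ι L) {v c : V} {ω : ℝ} (h : ‖v - c‖ ≤ ω) (j : ι) :
    G.b j c - G.C * ω ≤ G.b j v := by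
  have h1 := (neg_abs_le _).trans (le_refl (G.b j (v - c)))
  have h3 := G.b_le j (v - c)
  rw [map_sub] at h1 h3
  have h2 := mul_le_mul_of_nonneg_left h G.C_nonneg
  linarith

/-- a common upper bound -/
theorem exists_ub (l : List ℝ) : ∃ K : ℝ, 1 ≤ K ∧ ∀ v ∈ l, v ≤ K := by
  induction l with
  | nil => exact ⟨1, le_rfl, fun v hv => by simp at hv⟩
  | cons a l ih =>
    obtain ⟨K, h1, h2⟩ := ih
    refine ⟨max a K, h1.trans (le_max_right _ _), fun v hv => ?_⟩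
    rcases List.mem_cons.1 hv with rfl | hv
    · exact le_max_left _ _
    · exact (h2 v hv).trans (le_max_right _ _)

theorem Sc.ω_pos {K x ω r0 : ℝ} (h : Sc G K x ω r0) : 0 < ω := by linarith [h.ω_ge, h.one_le]

theorem Sc.ω_one {K x ω r0 : ℝ} (h : Sc G K x ω r0) : 1 ≤ ω := by linarith [h.ω_ge, h.one_le]

theorem Sc.x_ge_ω {K x ω r0 : ℝ} (h : Sc G K x ω r0) : ω ≤ x := by
  nlinarith [h.x_ge, h.one_le, h.ω_pos]

theorem Sc.x_pos {K x ω r0 : ℝ} (h : Sc G K x ω r0) : 0 < x := h.ω_pos.trans_le h.x_ge_ω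

theorem Sc.x_one {K x ω r0 : ℝ} (h : Sc G K x ω r0) : 1 ≤ x := h.ω_one.trans h.x_ge_ω

/-- `a * ω ≤ x` -/
theorem Sc.le_x {K x ω r0 a : ℝ} (h : Sc G K x ω r0) (ha : a ≤ K) : a * ω ≤ x :=
  (mul_le_mul_of_nonneg_right ha h.ω_pos.le).trans h.x_ge

/-- `a * (r0 + 1) ≤ ω` -/
theorem Sc.le_ω {K x ω r0 a : ℝ} (h : Sc G K x ω r0) (ha : a ≤ K) : a * (r0 + 1) ≤ ω :=
  (mul_le_mul_of_nonneg_right ha (by linarith [h.r0_nonneg])).trans h.r0_le

theorem Sc.le_ω' {K x ω r0 a : ℝ} (h : Sc G K x ω r0) (ha : a ≤ K) : a ≤ ω := ha.trans h.ω_ge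

theorem Sc.K_pos {K x ω r0 : ℝ} (h : Sc G K x ω r0) : 0 < K := by linarith [h.one_le]

/-- `a * er (a' * x) ≤ ω` -/
theorem Sc.er_le' {K x ω r0 a a' : ℝ} (h : Sc G K x ω r0) (ha : a ≤ K) (ha0 : 0 ≤ a)
    (ha' : a' ≤ K) : a * G.er (a' * x) ≤ ω := by
  refine le_trans ?_ h.er_le
  refine mul_le_mul ha (G.er_mono (mul_le_mul_of_nonneg_right ha' h.x_pos.le)) (G.er_pos _).le
    h.K_pos.le

/-- `a * x ≤ exp (ω / K)` -/
theorem Sc.le_exp {K x ω r0 a : ℝ} (h : Sc G K x ω r0) (ha : a ≤ K) : a * x ≤ Real.exp ω := by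
  refine (mul_le_mul_of_nonneg_right ha h.x_pos.le).trans (h.x_exp.trans (Real.exp_le_exp.2 ?_))
  rw [div_le_iff₀ h.K_pos]
  nlinarith [h.one_le, h.ω_pos]

/-- typical lines are straight a little further -/
theorem Typ.line_ext (hQ : QIe G Λ Ψ) {βm : ℝ} (hβ : 0 < βm) (hβm : ∀ i, βm ≤ G.β i)
    {ρ : Option ι → ℝ} {c : V} {ω r : ℝ} {z : S} (h : Typ G Ψ ρ c ω z) (i : ι)
    (hρ : 0 ≤ ρ (some i)) (hr : 0 ≤ r)
    (hω : 2 * G.C * Λ * (G.C * (G.C / βm + 1) + 1) * (r + 1) ≤ ω) {k : ℕ}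
    (hk : k * G.β i ≤ ρ (some i) + G.β i + G.C * r) :
    ‖Wd G Ψ (z * G.t i ^ k) - c‖ ≤ 2 * ω := by
  have hC := G.one_le_C
  have hω0 : 0 ≤ ω := le_trans (norm_nonneg _) h.base
  have hβi := G.β_pos i
  by_cases h1 : k * G.β i ≤ ρ (some i) + G.β i
  · exact (h.line i k h1).trans (by linarith)
  push Not at h1
  set k1 : ℕ := ⌊(ρ (some i) + G.β i) / G.β i⌋₊ with hk1
  have h2 : (k1 : ℝ) ≤ (ρ (some i) + G.β i) / G.β i := Nat.floor_le (by positivity)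
  have h3 : (ρ (some i) + G.β i) / G.β i < k1 + 1 := Nat.lt_floor_add_one _
  rw [le_div_iff₀ hβi] at h2
  rw [div_lt_iff₀ hβi] at h3
  have h4 : k1 ≤ k := by
    by_contra h5
    push Not at h5
    have h6 : (k : ℝ) + 1 ≤ k1 := by exact_mod_cast h5
    nlinarith
  have h5 : ((k - k1 : ℕ) : ℝ) ≤ G.C / βm * r + 1 := by
    rw [Nat.cast_sub h4]
    have h6 : ((k : ℝ) - k1) * G.β i ≤ G.β i + G.C * r := by nlinarith
    have h7 : (k : ℝ) - k1 ≤ (G.β i + G.C * r) / G.β i := by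
      rw [le_div_iff₀ hβi]; exact h6
    refine h7.trans ?_
    rw [add_div, div_self hβi.ne', add_comm]
    have h8 : G.C * r / G.β i ≤ G.C / βm * r := by
      rw [div_mul_eq_mul_div]
      exact div_le_div_of_nonneg_left (mul_nonneg G.C_nonneg hr) hβ (hβm i)
    linarith
  have h6 := Wd_lip hQ (z * G.t i ^ k1) (G.t i ^ (k - k1))
  rw [mul_assoc, ← pow_add, Nat.add_sub_cancel' h4] at h6
  have h7 := h.line i k1 h2
  have h8 : G.l (G.t i ^ (k - k1)) ≤ (G.C / βm * r + 1) * G.C :=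
    (G.l_tpow i _).trans (mul_le_mul_of_nonneg_right h5 G.C_nonneg)
  have h9 : 2 * G.C * Λ * (G.l (G.t i ^ (k - k1)) + 1) ≤ ω := by
    refine le_trans ?_ hω
    rw [mul_assoc (2 * G.C * Λ)]
    refine mul_le_mul_of_nonneg_left ?_ (by have := hQ.nonneg; positivity)
    have h10 : 0 ≤ G.C / βm := by positivity
    nlinarith [mul_nonneg G.C_nonneg hr, mul_nonneg h10 G.C_nonneg]
  calc ‖Wd G Ψ (z * G.t i ^ k) - c‖ = ‖(Wd G Ψ (z * G.t i ^ k) - Wd G Ψ (z * G.t i ^ k1)) +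
        (Wd G Ψ (z * G.t i ^ k1) - c)‖ := by congr 1; abel
    _ ≤ _ := (norm_add_le _ _).trans (by linarith)

/-- heights along a typical line -/
theorem Typ.height (hQ : QIe G Λ Ψ) {βm : ℝ} (hβ : 0 < βm) (hβm : ∀ i, βm ≤ G.β i)
    {ρ : Option ι → ℝ} {c : V} {x ω r : ℝ} {z : S} (h : Typ G Ψ ρ c ω z) (i : ι)
    (hρ : 0 ≤ ρ (some i)) (hr : 0 ≤ r) (hx : 0 ≤ x)
    (hwin : ∀ j, |ρ (some j) - x * G.p j| ≤ G.δ0 * x)
    (hω1 : 2 * G.C * Λ * (G.C * (G.C / βm + 1) + 1) * (r + 1) ≤ ω)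
    (hω2 : G.β i + G.C * r ≤ ω) (hω3 : ω ≤ G.δ0 * x) {k : ℕ}
    (hk : k * G.β i ≤ ρ (some i) + G.β i + G.C * r) (j : ι) :
    G.b j (G.θ (Ψ (z * G.t i ^ k))) ≤ G.b j (G.θ z + c) + ρ (some j) + (2 * G.C + 1) * ω := by
  have h1 := h.line_ext hQ hβ hβm i hρ hr hω1 hk
  have h2 := b_W_le G h1 j
  rw [θΨ, G.θ_mul, G.θ_pow, map_add, map_add, map_smul, map_add, smul_eq_mul]
  have h3 : (k : ℝ) * G.b j (G.θ (G.t i)) ≤ ρ (some j) + ω := by
    by_cases hj : j = i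
    · subst hj
      have : G.b j (G.θ (G.t j)) = G.β j := rfl
      rw [this]
      linarith
    · have h4 := G.dir i j hj x ρ hx hwin k (by
        have : G.b i (G.θ (G.t i)) = G.β i := rfl
        rw [this]
        linarith)
      have := G.c1_pos
      have h5 : 0 ≤ G.c1 * x := by positivity
      have h6 := G.β_pos i
      have h7 := mul_nonneg G.C_nonneg hr
      linarith
  linarith

/-- the path along a typical line -/
theorem Typ.path (hQ : QIe G Λ Ψ) {βm : ℝ} (hβ : 0 < βm) (hβm : ∀ i, βm ≤ G.β i)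
    {ρ : Option ι → ℝ} {c : V} {x ω r : ℝ} {z : S} (h : Typ G Ψ ρ c ω z) (i : ι)
    (hρ : 0 ≤ ρ (some i)) (hr : 0 ≤ r) (hx : 0 ≤ x)
    (hwin : ∀ j, |ρ (some j) - x * G.p j| ≤ G.δ0 * x)
    (hω1 : 2 * G.C * Λ * (G.C * (G.C / βm + 1) + 1) * (r + 1) ≤ ω)
    (hω2 : G.β i + G.C * r ≤ ω) (hω3 : ω ≤ G.δ0 * x) {m : ℕ}
    (hm : m * G.β i ≤ ρ (some i) + G.β i + G.C * r) :
    CP G (Λ * (G.C + 1)) (fun j => G.b j (G.θ z + c) + ρ (some j) + (2 * G.C + 1) * ω) (m + 1)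
      (Ψ z) (Ψ (z * G.t i ^ m)) := by
  have hP1 := CP.of_path (H := fun j => G.b j (G.θ z + c) + ρ (some j) + (2 * G.C + 1) * ω) hQ
    (fun k => z * G.t i ^ k) m (fun k _ => by
      have : (z * G.t i ^ k)⁻¹ * (z * G.t i ^ (k + 1)) = G.t i := by
        rw [pow_succ]; group
      rw [this]
      exact G.t_le i)
    (fun k hk j => by
      have h1 : (k : ℝ) ≤ m := by exact_mod_cast hk
      have h2 := G.β_pos i
      exact h.height hQ hβ hβm i hρ hr hx hwin hω1 hω2 hω3 (by nlinarith) j)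
  simpa using hP1

/-- a short move from a point with controlled height -/
theorem short_move (hQ : QIe G Λ Ψ) {H : ι → ℝ} {z g : S} {e ω : ℝ} (he : G.l g ≤ e) (he1 : 1 ≤ e)
    (hω : (G.C ^ 3 + 2 * G.C * G.C * Λ * (G.C + 1)) * 2 * e ≤ ω)
    (hH : ∀ j, G.b j (G.θ (Ψ z)) ≤ H j) :
    CP G (Λ * (G.C + 1)) (fun j => H j + ω) (e + 2) (Ψ z) (Ψ (z * g)) := by
  have hC := G.one_le_C
  have hΛ := hQ.nonneg
  refine CP.short hQ z g (by linarith) fun g' hg' j => ?_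
  have h1 := hH j
  have h2 := Wd_lip hQ z g'
  have h3 := b_W_le G h2 j
  have h4 := (le_abs_self _).trans (G.b_θ_le j g')
  have hlg' := G.l_nonneg g'
  have hlg := G.l_nonneg g
  rw [θΨ] at h1 ⊢
  rw [G.θ_mul z g', map_add, map_add]
  rw [map_add] at h1
  have h6 : G.l g' ≤ G.C * (2 * e) := hg'.trans
    (mul_le_mul_of_nonneg_left (by linarith) G.C_nonneg)
  have h7 : G.l g' + 1 ≤ (G.C + 1) * (2 * e) := by nlinarith
  have h8 : G.C ^ 2 * G.l g' ≤ G.C ^ 3 * (2 * e) := by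
    have := mul_le_mul_of_nonneg_left h6 (sq_nonneg G.C)
    calc G.C ^ 2 * G.l g' ≤ G.C ^ 2 * (G.C * (2 * e)) := this
      _ = _ := by ring
  have h9 : G.C * (2 * G.C * Λ * (G.l g' + 1)) ≤ 2 * G.C * G.C * Λ * (G.C + 1) * (2 * e) := by
    have h10 : 0 ≤ 2 * G.C * G.C * Λ := by positivity
    have := mul_le_mul_of_nonneg_left h7 h10
    calc G.C * (2 * G.C * Λ * (G.l g' + 1)) = 2 * G.C * G.C * Λ * (G.l g' + 1) := by ring
      _ ≤ _ := this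
      _ = _ := by ring
  linarith

end Vale.P188.H532
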