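import Vale.Agent.P188.H532.Slide

/-!
# P188, route B: slides between typical points, part 2
-/

set_option linter.all false

namespace Vale.P188.H532

open MeasureTheory Set

variable {S E V ι L : Type} [Group S] [Group E] [MeasurableSpace E] [NormedAddCommGroup V]
    [NormedSpace ℝ V] [Fintype ι] [DecidableEq ι] [Fintype L]

variable {G : Geo S E V ι L} {Λ : ℝ} {Ψ : S → S}

/-- the merging time -/
theorem exists_merge (G : Geo S E V ι L) {βm : ℝ} (hβ : 0 < βm) (hβm : ∀ i, βm ≤ G.β i)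
    (i : ι) {μ r R : ℝ} (hμ : 0 ≤ μ) (hr : 0 ≤ r) (hR : μ + G.C * r ≤ R) :
    ∃ m : ℕ, μ + G.C * r ≤ m * G.β i ∧ m * G.β i ≤ μ + G.β i + G.C * r ∧ (m : ℝ) ≤ R / βm + 1 := by
  have hβi := G.β_pos i
  have hCr : 0 ≤ G.C * r := mul_nonneg G.C_nonneg hr
  have hm1 : μ + G.C * r ≤ (⌈(μ + G.C * r) / G.β i⌉₊ : ℝ) * G.β i := by
    have := Nat.le_ceil ((μ + G.C * r) / G.β i)
    rwa [div_le_iff₀ hβi] at this
  have hm2 : (⌈(μ + G.C * r) / G.β i⌉₊ : ℝ) < (μ + G.C * r) / G.β i + 1 :=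
    Nat.ceil_lt_add_one (by positivity)
  refine ⟨⌈(μ + G.C * r) / G.β i⌉₊, hm1, ?_, ?_⟩
  · have h1 : (⌈(μ + G.C * r) / G.β i⌉₊ : ℝ) * G.β i < ((μ + G.C * r) / G.β i + 1) * G.β i :=
      mul_lt_mul_of_pos_right hm2 hβi
    rw [add_mul, div_mul_cancel₀ _ hβi.ne', one_mul] at h1
    linarith
  · have h1 : (μ + G.C * r) / G.β i ≤ R / βm :=
      div_le_div₀ (by linarith) hR hβ (hβm i)
    linarith

theorem win_le (G : Geo S E V ι L) {x : ℝ} (hx : 0 ≤ x) {ρ : Option ι → ℝ}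
    (hwin : ∀ j, |ρ (some j) - x * G.p j| ≤ G.δ0 * x) (i : ι) : ρ (some i) ≤ G.C * x := by
  have h1 := (abs_le.1 (hwin i)).2
  have h2 := G.p_ub i
  nlinarith

theorem win_ge (G : Geo S E V ι L) {x : ℝ} (hx : 0 ≤ x) {ρ : Option ι → ℝ}
    (hwin : ∀ j, |ρ (some j) - x * G.p j| ≤ G.δ0 * x) (i : ι) : G.c1 * x ≤ ρ (some i) := by
  have h1 := (abs_le.1 (hwin i)).1
  have h2 := G.p_lb i
  nlinarith

/-- the constants for the slides -/
structure SlK (G : Geo S E V ι L) (Λ βm K : ℝ) : Prop where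
  one : 1 ≤ K
  a : 2 * G.C * Λ * (G.C * (G.C / βm + 1) + 1) ≤ K
  b : G.C ^ 3 + G.C ≤ K
  c : 1 / G.δ0 ≤ K
  d : (G.C ^ 3 + 2 * G.C * G.C * Λ * (G.C + 1)) * 2 ≤ K
  e : (G.C + 1) / βm + 1 ≤ K
  f : 16 ≤ K
  g : 8 * ((G.C + 1) / βm + 4) ≤ K
  h : 2 * G.C + 3 ≤ K

theorem exists_SlK (G : Geo S E V ι L) (Λ βm : ℝ) : ∃ K : ℝ, 1 ≤ K ∧ ∀ K' : ℝ, K ≤ K' → SlK G Λ βm K' := by
  obtain ⟨K, h1, h2⟩ := exists_ub [2 * G.C * Λ * (G.C * (G.C / βm + 1) + 1), G.C ^ 3 + G.C,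
    1 / G.δ0, (G.C ^ 3 + 2 * G.C * G.C * Λ * (G.C + 1)) * 2, (G.C + 1) / βm + 1, 16,
    8 * ((G.C + 1) / βm + 4), 2 * G.C + 3]
  simp only [List.mem_cons, List.not_mem_nil, or_false, forall_eq_or_imp, forall_eq] at h2
  obtain ⟨ha, hb, hc, hd, he, hf, hg, hh⟩ := h2
  exact ⟨K, h1, fun K' hK => ⟨h1.trans hK, ha.trans hK, hb.trans hK, hc.trans hK, hd.trans hK,
    he.trans hK, hf.trans hK, hg.trans hK, hh.trans hK⟩⟩

theorem SlK.w2 {βm K x ω r : ℝ} (hK : SlK G Λ βm K) (hS : Sc G K x ω r) (i : ι) :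
    G.β i + G.C * r ≤ ω := by
  have h1 := hS.le_ω hK.b
  have h2 := G.β_le i
  have h3 : 0 ≤ G.C ^ 3 * r := mul_nonneg (pow_nonneg G.C_nonneg 3) hS.r0_nonneg
  nlinarith [G.one_le_C]

theorem SlK.w3 {βm K x ω r : ℝ} (hK : SlK G Λ βm K) (hS : Sc G K x ω r) : ω ≤ G.δ0 * x := by
  have h1 := hS.le_x hK.c
  rw [one_div, inv_mul_le_iff₀ G.δ0_pos] at h1
  exact h1

/-- **Slides.** -/
theorem slide (hQ : QIe G Λ Ψ) {βm K : ℝ} (hβ : 0 < βm) (hβm : ∀ i, βm ≤ G.β i)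
    (hK : SlK G Λ βm K) {x ω : ℝ} {ρ : Option ι → ℝ} (hS : Sc G K x ω (ρ none))
    (hwin : ∀ j, |ρ (some j) - x * G.p j| ≤ G.δ0 * x) {c : V} {i : ι} {μ : ℝ} (hμ0 : 0 ≤ μ)
    (hμ : μ ≤ ρ (some i)) {z : S} {y : E} (hy : y ∈ G.U (some i) μ (ρ none))
    (hz : Typ G Ψ ρ c ω z) (hzy : Typ G Ψ ρ c ω (z * G.inc y)) :
    CP G (Λ * (G.C + 1)) (fun j => G.b j (G.θ z + c) + ρ (some j) + K * ω) (Real.exp ω) (Ψ z)
      (Ψ (z * G.inc y)) := by
  have hr0 := hS.r0_nonneg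
  have hx := hS.x_pos
  have hω1 := hS.le_ω hK.a
  have hω2 := hK.w2 hS i
  have hω3 := hK.w3 hS
  have hρi : 0 ≤ ρ (some i) := hμ0.trans hμ
  have hρx := win_le G hx.le hwin i
  have hδ : G.δ0 * x ≤ x := by nlinarith [G.δ0_le]
  have hβi := G.β_pos i
  obtain ⟨m, hm1, hm2, hm3⟩ := exists_merge G hβ hβm i (μ := μ) (r := ρ none)
    (R := (G.C + 1) * x) hμ0 hr0 (by linarith)
  have hm4 : (m : ℝ) ≤ K * x := by
    refine hm3.trans (le_trans ?_ (mul_le_mul_of_nonneg_right hK.e hx.le))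
    have h6 : (G.C + 1) * x / βm = (G.C + 1) / βm * x := by rw [div_mul_eq_mul_div]
    rw [h6]
    linarith [hS.x_one]
  have hKpos := hS.K_pos
  -- the merged element
  have hlg : G.l ((G.t i ^ m)⁻¹ * G.inc y * G.t i ^ m) ≤ ω / K := by
    refine (G.U_merge i μ _ hμ0 hr0 y hy m hm1).trans ((G.er_mono hm4).trans ?_)
    rw [le_div_iff₀ hKpos]
    linarith [hS.er_le]
  have h1K : 1 ≤ ω / K := by rw [le_div_iff₀ hKpos]; linarith [hS.ω_ge]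
  have hθy : G.θ (z * G.inc y) = G.θ z := by rw [G.θ_mul, G.θ_inc, add_zero]
  have hm5 : m * G.β i ≤ ρ (some i) + G.β i + G.C * ρ none := by linarith
  have hP1 := hz.path hQ hβ hβm i hρi hr0 hx.le hwin hω1 hω2 hω3 hm5
  have hP3 := hzy.path hQ hβ hβm i hρi hr0 hx.le hwin hω1 hω2 hω3 hm5
  rw [hθy] at hP3
  have hd : (G.C ^ 3 + 2 * G.C * G.C * Λ * (G.C + 1)) * 2 * (ω / K) ≤ ω := by
    have h7 := mul_le_mul_of_nonneg_right hK.d (le_trans zero_le_one h1K)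
    rw [mul_div_cancel₀ _ hKpos.ne'] at h7
    exact h7
  have hP2 := short_move (z := z * G.t i ^ m)
    (H := fun j => G.b j (G.θ z + c) + ρ (some j) + (2 * G.C + 1) * ω) hQ hlg h1K hd
    (fun j => hP1.right j)
  have hend : z * G.t i ^ m * ((G.t i ^ m)⁻¹ * G.inc y * G.t i ^ m) = z * G.inc y * G.t i ^ m := by
    group
  rw [hend] at hP2
  have hω0 := hS.ω_pos
  have hKω : (2 * G.C + 3) * ω ≤ K * ω := mul_le_mul_of_nonneg_right hK.h hω0.le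
  refine (((hP1.mono le_rfl (fun j => ?_) le_rfl).trans (hP2.mono le_rfl (fun j => ?_) le_rfl)).trans
    (hP3.symm.mono le_rfl (fun j => ?_) le_rfl)).mono le_rfl (fun j => le_rfl) ?_
  · linarith
  · linarith
  · linarith
  · have h3 : ω / K ≤ x := by
      rw [div_le_iff₀ hKpos]
      nlinarith [hS.x_ge_ω, hK.one]
    have h4 := hS.le_exp (le_refl K)
    have h5 := mul_le_mul_of_nonneg_right hK.g hx.le
    have h6 : (G.C + 1) * x / βm = (G.C + 1) / βm * x := by rw [div_mul_eq_mul_div]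
    rw [h6] at hm3
    nlinarith [hS.x_one]

/-- **Neutral slides.** -/
theorem slide0 (hQ : QIe G Λ Ψ) {βm K : ℝ} (hK : SlK G Λ βm K) {x ω : ℝ} {ρ : Option ι → ℝ}
    (hS : Sc G K x ω (ρ none)) (hρ : ∀ j, 0 ≤ ρ j) {c : V} {z : S} {y : E}
    (hy : y ∈ G.Y0 (ρ none)) (hz : Typ G Ψ ρ c ω z) :
    CP G (Λ * (G.C + 1)) (fun j => G.b j (G.θ z + c) + ρ (some j) + K * ω) (Real.exp ω) (Ψ z)
      (Ψ (z * G.inc y)) := by
  obtain ⟨m, p, h1, h2, h3, h4, h5⟩ := G.Y_path _ (hρ none) y hy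
  have hω0 := hS.ω_pos
  have hCK : G.C ≤ K := by
    have := hK.b
    have h6 := pow_nonneg G.C_nonneg 3
    linarith
  have hP := CP.of_path (H := fun j => G.b j (G.θ z + c) + ρ (some j) + K * ω) hQ
    (fun i => z * G.inc (p i)) m (fun i _ => by
      have : (z * G.inc (p i))⁻¹ * (z * G.inc (p (i + 1))) = G.inc ((p i)⁻¹ * p (i + 1)) := by
        rw [map_mul, map_inv]; group
      rw [this]
      exact h5 i)
    (fun i _ j => by
      have h6 := b_W_le G (hz.neut _ (h4 i)) j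
      rw [θΨ, G.θ_mul, G.θ_inc, add_zero, map_add, map_add]
      have h7 := hρ (some j)
      have h8 := mul_le_mul_of_nonneg_right hCK hω0.le
      linarith)
  rw [h2, h3, map_one, mul_one] at hP
  refine hP.mono le_rfl (fun j => le_rfl) ?_
  have h6 : G.C * (ρ none + 1) ≤ ω / 2 := by
    have h7 : 2 * G.C ≤ K := by linarith [hK.h]
    have := hS.le_ω h7
    linarith
  have h7 : Real.exp (G.C * (ρ none + 1)) ≤ Real.exp (ω / 2) := Real.exp_le_exp.2 h6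
  have h8 : Real.exp ω = Real.exp (ω / 2) * Real.exp (ω / 2) := by
    rw [← Real.exp_add]; congr 1; ring
  have h9 : 8 ≤ ω / 2 := by linarith [hS.ω_ge, hK.f]
  have h10 : ω / 2 + 1 ≤ Real.exp (ω / 2) := Real.add_one_le_exp _
  rw [h8]
  nlinarith

/-- **Slides by a letter.** -/
theorem slide_letter (hQ : QIe G Λ Ψ) {βm K : ℝ} (hβ : 0 < βm) (hβm : ∀ i, βm ≤ G.β i)
    (hK : SlK G Λ βm K) {x ω : ℝ} {ρ : Option ι → ℝ} (hS : Sc G K x ω (ρ none))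
    (hwin : ∀ j, |ρ (some j) - x * G.p j| ≤ G.δ0 * x) {c : V} {z : S} {a : L} {u : ℝ}
    (hu : |u| ≤ 1) (hz : Typ G Ψ ρ c ω z)
    (hzy : Typ G Ψ ρ c ω (z * G.inc (ls G.ray G.τ G.s ρ a u))) :
    CP G (Λ * (G.C + 1)) (fun j => G.b j (G.θ z + c) + ρ (some j) + K * ω) (Real.exp ω) (Ψ z)
      (Ψ (z * G.inc (ls G.ray G.τ G.s ρ a u))) := by
  have hρ : ∀ j, 0 ≤ ρ j := by
    rintro (_ | j)
    · exact hS.r0_nonneg
    · refine le_trans ?_ (win_ge G hS.x_pos.le hwin j)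
      exact mul_nonneg G.c1_pos.le hS.x_pos.le
  rcases h : G.ray a with _ | i
  · exact slide0 hQ hK hS hρ (G.Y_ls ρ a u hρ h hu) hz
  · have h1 := G.U_ls ρ a u hρ (by rw [h]; simp) hu
    rw [h] at h1
    exact slide hQ hβ hβm hK hS hwin (hρ _) le_rfl h1 hz hzy

end Vale.P188.H532
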