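import Vale.Agent.P188.H532.To3

/-!
# P188, route B: T_o
-/

set_option linter.all false

namespace Vale.P188.H532

open MeasureTheory Set TopologicalSpace

variable {S E V ι L : Type} [Group S] [Group E] [MeasurableSpace E] [NormedAddCommGroup V]
    [NormedSpace ℝ V] [Fintype ι] [DecidableEq ι] [Fintype L]

variable {G : Geo S E V ι L} {Λ : ℝ} {Ψ : S → S}

/-- the constants of T_o -/
structure ToK (G : Geo S E V ι L) (𝒢 : ConnData G) (Λ βm Ks KL a s K : ℝ) : Prop where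
  C : G.C ≤ K
  k1 : 3 * 14 * Ks ≤ K
  k2 : 3 * a * KL ≤ K
  k3 : 8 * G.C ^ 2 * Λ ≤ K
  k4 : 2 * G.C * Λ * (G.C + 1) ≤ K
  k5 : 2 * 𝒢.n + 1 ≤ K
  k6 : 8 * G.C * (G.C + s) / G.δ0 ≤ K
  k7 : 2 * G.C / G.c1 ≤ K
  k8 : 16 / G.δ0 ≤ K
  k9 : 24 * G.C / G.δ0 ≤ K
  k10 : 21 ≤ K
  k11 : 6 + KL * a ≤ K

theorem exists_ToK (G : Geo S E V ι L) (𝒢 : ConnData G) (Λ βm Ks KL a s : ℝ) :
    ∃ K : ℝ, 1 ≤ K ∧ ToK G 𝒢 Λ βm Ks KL a s K := by
  obtain ⟨K, h1, h2⟩ := exists_ub [G.C, 3 * 14 * Ks, 3 * a * KL, 8 * G.C ^ 2 * Λ,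
    2 * G.C * Λ * (G.C + 1), 2 * 𝒢.n + 1, 8 * G.C * (G.C + s) / G.δ0, 2 * G.C / G.c1,
    16 / G.δ0, 24 * G.C / G.δ0, 21, 6 + KL * a]
  simp only [List.mem_cons, List.not_mem_nil, or_false, forall_eq_or_imp, forall_eq] at h2
  obtain ⟨a1, a2, a3, a4, a5, a6, a7, a8, a9, a10, a11, a12⟩ := h2
  exact ⟨K, h1, ⟨a1, a2, a3, a4, a5, a6, a7, a8, a9, a10, a11, a12⟩⟩

/-- the factor of `ε2` -/
noncomputable def E2 (G : Geo S E V ι L) (𝒢 : ConnData G) (s : ℝ) (Kn : ℕ) : ℝ :=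
  (𝒢.K * (2 + Fintype.card ι * (Kn + 1)) + 4) * Real.exp (G.C * (1 + s))

theorem E2_eq (𝒢 : ConnData G) (ε s : ℝ) (Kn : ℕ) : ε2 G 𝒢 ε s Kn = ε * E2 G 𝒢 s Kn := by
  unfold ε2 E2; ring

theorem E2_nonneg (𝒢 : ConnData G) (s : ℝ) (Kn : ℕ) : 0 ≤ E2 G 𝒢 s Kn := by
  unfold E2
  have := 𝒢.K_nonneg
  positivity

/-- the small proportion -/
structure ToE (G : Geo S E V ι L) (𝒢 : ConnData G) (s ε1 : ℝ) (Nη Kn : ℕ) (ε : ℝ) : Prop where
  pos : 0 < ε
  e1 : ε * Real.exp (G.C * (1 + s)) ≤ 1 / 4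
  e2 : ε * (Real.exp (G.C * (1 + (G.C + s))) + 1) ≤ 1 / 4
  e3 : ε * (E2 G 𝒢 s Kn * Real.exp (G.C * (1 + G.C))) ≤ 1 / 8
  e4 : ε * (4 * Real.exp (G.C * (1 + G.C))) ≤ ε1 / 2
  e5 : ε * (8 * (Nη + 1) * (Nη + 1) * E2 G 𝒢 s Kn * Real.exp G.M4) ≤ ε1 / 2

theorem exists_ToE (G : Geo S E V ι L) (𝒢 : ConnData G) (s : ℝ) {ε1 : ℝ} (hε1 : 0 < ε1)
    (Nη Kn : ℕ) : ∃ ε : ℝ, ToE G 𝒢 s ε1 Nη Kn ε := by
  obtain ⟨M, h1, h2⟩ := exists_ub [Real.exp (G.C * (1 + s)) / (1 / 4),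
    (Real.exp (G.C * (1 + (G.C + s))) + 1) / (1 / 4),
    (E2 G 𝒢 s Kn * Real.exp (G.C * (1 + G.C))) / (1 / 8),
    (4 * Real.exp (G.C * (1 + G.C))) / (ε1 / 2),
    (8 * (Nη + 1) * (Nη + 1) * E2 G 𝒢 s Kn * Real.exp G.M4) / (ε1 / 2)]
  simp only [List.mem_cons, List.not_mem_nil, or_false, forall_eq_or_imp, forall_eq] at h2
  obtain ⟨a1, a2, a3, a4, a5⟩ := h2
  have hM : 0 < M := by linarith
  have key : ∀ v b : ℝ, 0 < b → v / b ≤ M → M⁻¹ * v ≤ b := by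
    intro v b hb h
    rw [div_le_iff₀ hb] at h
    rw [inv_mul_le_iff₀ hM]
    exact h
  exact ⟨M⁻¹, inv_pos.2 hM, key _ _ (by norm_num) a1, key _ _ (by norm_num) a2,
    key _ _ (by norm_num) a3, key _ _ (by positivity) a4, key _ _ (by positivity) a5⟩

/-- all the data -/
theorem exists_ToD (hQ : QIe G Λ Ψ) (𝒢 : ConnData G) {βm Ks KL a s δ K : ℝ} (hβ : 0 < βm)
    (hβm : ∀ i, βm ≤ G.β i) (hKs : SlK G Λ βm Ks) (hKL : 1 ≤ KL) (ha : 1 ≤ a)
    (hs1 : 𝒢.C' ≤ s) (hs2 : G.C ≤ s) (hK : ToK G 𝒢 Λ βm Ks KL a s K) (hδ0 : 0 ≤ δ)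
    (hδ1 : δ ≤ G.δ0 / (8 * G.C)) (hδ2 : δ ≤ G.c1 / (4 * G.C)) {η ε1 x r0 ε : ℝ} (hη : 0 < η)
    {Nη : ℕ} (hE : ToE G 𝒢 s ε1 Nη ⌈16 * G.C ^ 3 * Λ / (βm * η)⌉₊ ε)
    (hS : Sc G K x (η * x) r0) (hr0 : K ≤ r0) : ∃ q : ℕ,
    ToD G 𝒢 Λ βm Ks δ x r0 (η * x) ε s q ⌈16 * G.C ^ 3 * Λ / (βm * η)⌉₊ := by
  have hC := G.one_le_C
  have hC0 := G.C_pos
  have hω := hS.ω_pos
  have hω1 := hS.ω_ge
  have hx := hS.x_pos
  have hδ := G.δ0_pos
  have hδ1' := G.δ0_le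
  have hKx : K ≤ x := by
    have h1 := hS.x_ge
    have h2 := hS.ω_one
    have h3 := hS.K_pos
    nlinarith
  obtain ⟨q, hq1, hq2, hq3⟩ := exists_qKn (βm := βm) (η := η) (x := x) hC hQ.one_le hβ hη
    (hK.k3.trans hω1)
  have hhalf : G.δ0 / (8 * G.C) ≤ G.δ0 / (4 * G.C) - δ := by
    have : G.δ0 / (4 * G.C) = G.δ0 / (8 * G.C) + G.δ0 / (8 * G.C) := by field_simp; ring
    linarith
  have hk6 : ∀ y : ℝ, K ≤ y → G.C + s ≤ (G.δ0 / (4 * G.C) - δ) * y := by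
    intro y hy
    have h1 := hK.k6.trans hy
    rw [div_le_iff₀ hδ] at h1
    have h2 : G.C + s ≤ G.δ0 / (8 * G.C) * y := by
      rw [div_mul_eq_mul_div, le_div_iff₀ (by positivity)]
      linarith
    exact h2.trans (mul_le_mul_of_nonneg_right hhalf (hS.K_pos.le.trans hy))
  have hδδ : δ ≤ G.δ0 / 8 := by
    refine hδ1.trans ?_
    apply div_le_div_of_nonneg_left hδ.le (by norm_num)
    linarith
  refine ⟨q, ⟨hβ, hβm, hKs, ⟨hω, hE.pos.le, hq1, hq2, hs1, hs2, hE.e1⟩, hq3, ?_, ?_,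
    hk6 _ hr0, hS.r0_nonneg, hK.C.trans hr0, hk6 _ hKx, ?_, ?_, hδδ, hδ0, by linarith, ?_,
    hE.e2⟩⟩
  · have := hS.scale (K' := Ks) (a := 14) hKs.one (by norm_num) (by linarith [hK.k1])
      (r0' := 2 * (r0 + 1)) (by linarith [hS.r0_nonneg]) le_rfl
    convert this using 1
    ring
  · intro r' h1 h2
    have := hS.scale (K' := Ks) (a := 14) hKs.one (by norm_num) (by linarith [hK.k1])
      (r0' := r') h1 h2
    convert this using 1
    ring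
  · have h1 : r0 + 1 ≤ G.δ0 / 16 * x := by
      have h2 := hK.k8
      rw [div_le_iff₀ hδ] at h2
      have h3 := hS.r0_le
      have h4 := hS.x_ge_ω
      have h5 : 16 * (r0 + 1) ≤ G.δ0 * x := by
        calc 16 * (r0 + 1) ≤ (K * G.δ0) * (r0 + 1) :=
              mul_le_mul_of_nonneg_right h2 (by linarith [hS.r0_nonneg])
          _ = G.δ0 * (K * (r0 + 1)) := by ring
          _ ≤ G.δ0 * x := mul_le_mul_of_nonneg_left (h3.trans h4) hδ.le
      linarith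
    have h6 : 3 * G.C ≤ G.δ0 / 8 * x := by
      have h2 := hK.k9.trans hKx
      rw [div_le_iff₀ hδ] at h2
      linarith
    linarith
  · have h1 : G.C ≤ G.c1 / 2 * x := by
      have h2 := hK.k7.trans hKx
      rw [div_le_iff₀ G.c1_pos] at h2
      linarith
    have h3 : G.C * (2 * δ * x) ≤ G.c1 / 2 * x := by
      have h4 : G.C * δ ≤ G.c1 / 4 := by
        rw [le_div_iff₀ (by positivity)] at hδ2
        linarith
      calc G.C * (2 * δ * x) = 2 * (G.C * δ) * x := by ring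
        _ ≤ 2 * (G.c1 / 4) * x := mul_le_mul_of_nonneg_right (by linarith) hx.le
        _ = _ := by ring
    linarith
  · have := hK.k4.trans hω1
    linarith

/-- **T_o** -/
theorem to_holds (G : Geo S E V ι L) [SeparableSpace V] (Λ : ℝ) : TO G Λ := by
  classical
  obtain ⟨𝒢⟩ := exists_connData G
  obtain ⟨βm, hβ, -, hβm⟩ := G.exists_βm
  obtain ⟨Ks, hKs1, hKs⟩ := exists_SlK G Λ βm
  replace hKs := hKs Ks le_rfl
  obtain ⟨KL, δL, hKL, hδL, hδL1, hLOC⟩ := loc1 G Λ (G.C + G.C * (1 + G.C))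
  have hC := G.one_le_C
  have hC0 := G.C_pos
  set a : ℝ := 14 * Ks + G.C + 7 with ha
  have ha1 : 22 ≤ a := by linarith
  set s : ℝ := max 𝒢.C' G.C with hs
  have hs1 : 𝒢.C' ≤ s := le_max_left _ _
  have hs2 : G.C ≤ s := le_max_right _ _
  obtain ⟨K, hK1, hK⟩ := exists_ToK G 𝒢 Λ βm Ks KL a s
  obtain ⟨𝒟, h𝒟c, h𝒟⟩ := exists_countable_dense V
  set δ : ℝ := min (G.δ0 / (8 * G.C)) (min (G.c1 / (4 * G.C)) (δL / 2)) with hδ
  have hδpos : 0 < δ := by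
    refine lt_min (div_pos G.δ0_pos (by positivity)) (lt_min (div_pos G.c1_pos (by positivity)) ?_)
    positivity
  have hδ1 : δ ≤ G.δ0 / (8 * G.C) := min_le_left _ _
  have hδ2 : δ ≤ G.c1 / (4 * G.C) := (min_le_right _ _).trans (min_le_left _ _)
  have hδ3 : δ ≤ δL / 2 := (min_le_right _ _).trans (min_le_right _ _)
  refine ⟨K, δ, hK1, hδpos, fun η ε1 hη hε1 => ?_⟩
  set Nη : ℕ := ⌈1 / η⌉₊ with hNη
  set Kn : ℕ := ⌈16 * G.C ^ 3 * Λ / (βm * η)⌉₊ with hKn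
  obtain ⟨ε, hE⟩ := exists_ToE G 𝒢 s hε1 Nη Kn
  refine ⟨ε, hE.pos, fun Ψ x r0 hQ hS hr0 hF o P P' Y c hst hw hw' hc => ?_⟩
  obtain ⟨q, h⟩ := exists_ToD hQ 𝒢 hβ hβm hKs hKL (by linarith) hs1 hs2 hK hδpos.le hδ1 hδ2 hη hE
    hS hr0
  have hω := hS.ω_pos
  have hω1 := hS.ω_one
  have hx := hS.x_pos
  have hω0 : η * x = η * x := rfl
  set ω : ℝ := η * x with hωdef
  have hεnn := hE.pos.le
  have hP := h.nonneg hw
  have hP' := h.nonneg hw'
  -- the small window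
  set ρ := smallW o P P' with hρdef
  have hrel := smallW_rel hst hK.C hw hw' h.hr0' hx.le (by
    have := h.hδ; linarith [G.δ0_pos])
  have hlam0 : 0 ≤ P' o - P o := by linarith [hst.self]
  have hlam := h.lam (o := o) hw hw'
  have hρW : Win G δ x r0 ρ := by
    have := smallW_mid (o := o) le_rfl hlam0 hw hw'
    rwa [bump_zero] at this
  have hρ := h.nonneg hρW
  -- the constant of `sh P C` at `Y`
  obtain ⟨c'', hc''⟩ := (hF _ (h.winC hw) Y).1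
  have hcc'' : ‖c'' - c‖ ≤ 2 * ω := by
    refine hc''.near' hc le_rfl le_rfl hεnn hC0.le hP (fun j => ?_) (fun j => le_rfl) ?_
    · simp only [sh]; linarith
    · have h1 := hE.e2
      have h2 : Real.exp (G.C * (1 + G.C)) ≤ Real.exp (G.C * (1 + (G.C + s))) :=
        Real.exp_le_exp.2 (mul_le_mul_of_nonneg_left (by linarith) hC0.le)
      have h3 : ε * (Real.exp (G.C * (1 + G.C)) + 1) ≤
          ε * (Real.exp (G.C * (1 + (G.C + s))) + 1) :=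
        mul_le_mul_of_nonneg_left (by linarith) hεnn
      linarith
  have hBc := const_rel (Y := Y) hQ hεnn hP hρ hrel.le' hc'' hcc''
  set Bc : Set E := {n0 | n0 ∈ G.N P ∧ ENNReal.ofReal (1 / 4) * G.ν (G.N ρ) <
      G.ν {n | n ∈ G.N ρ ∧ 3 * ω < ‖Wd G Ψ (Y * G.inc n0 * G.inc n) - c‖}} with hBcdef
  -- levels
  set lk : ℕ → ℝ := fun k => min (k * (a * ω)) (P' o - P o) with hlk
  have haω : 0 < a * ω := by positivity
  have hlk0 : lk 0 = 0 := by simp [hlk, hlam0]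
  have hlkm : Monotone lk := by
    intro k k' hkk
    refine min_le_min_right _ (mul_le_mul_of_nonneg_right ?_ haω.le)
    exact_mod_cast hkk
  have hlks : ∀ k, lk (k + 1) ≤ lk k + a * ω := by
    intro k
    show min _ _ ≤ min _ _ + _
    rw [← min_add_add_right]
    refine min_le_min (le_of_eq ?_) (by linarith)
    push_cast; ring
  have hlkl : ∀ k, lk k ≤ P' o - P o := fun k => min_le_right _ _
  have hlknn : ∀ k, 0 ≤ lk k := fun k => hlk0 ▸ hlkm (Nat.zero_le k)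
  set n : ℕ := ⌈(P' o - P o) / (a * ω)⌉₊ with hn
  have hlkn : lk n = P' o - P o := by
    refine min_eq_right ?_
    have := Nat.le_ceil ((P' o - P o) / (a * ω))
    rwa [div_le_iff₀ haω] at this
  have hnN : n ≤ Nη := by
    refine Nat.ceil_le_ceil ?_
    rw [div_le_div_iff₀ haω hη]
    have h1 : 2 * δ ≤ 1 := by linarith
    have h2 : 2 * δ * x ≤ x := by nlinarith
    calc (P' o - P o) * η ≤ x * η := mul_le_mul_of_nonneg_right (hlam.trans h2) hη.le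
      _ = 1 * ω := by rw [hωdef]; ring
      _ ≤ 1 * (a * ω) := by nlinarith
  have hmid : ∀ k, Win G δ x r0 (bump ρ o (lk k) 0) := fun k =>
    smallW_mid (hlknn k) (hlkl k) hw hw'
  have hcce : ∀ k g, ∃ c, IsC G Ψ 0 ω ε (sh (sh (bump ρ o (lk k) 0) G.C) s) g c := fun k g =>
    (hF _ (h.win (hmid k)) g).1
  choose cc hcc using hcce
  have hsep := fun k => G.sep o P (lk k) G.C hP (hlknn k) hC0.le
  choose X hXU hXc hXd using hsep
  set ε1' : ℝ := 1 / (8 * (Nη + 1)) with hε1'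
  have hε1'pos : 0 < ε1' := by positivity
  have hN0 : (0 : ℝ) ≤ Nη := Nat.cast_nonneg _
  have hnε : ((n : ℝ) + 1) * ε1' ≤ 1 / 8 := by
    have h1 : (n : ℝ) ≤ Nη := by exact_mod_cast hnN
    rw [hε1', mul_one_div, div_le_div_iff₀ (by positivity) (by norm_num)]
    linarith
  set B : ℕ → Set E := fun k => {n0 | n0 ∈ G.N P ∧ ENNReal.ofReal (ε1' * (X k).card) *
    G.ν (G.N ρ) < ∑ y ∈ X k, G.ν (G.N ρ \ {e | e * y ∈ Av G 𝒢 Ψ (sh (bump ρ o (lk k) 0) G.C)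
      (cc k (Y * G.inc n0)) ω (Y * G.inc n0)})} with hB
  have hBk : ∀ k, G.ν (B k) ≤
      ENNReal.ofReal (ε2 G 𝒢 ε s Kn * Real.exp G.M4 / ε1') * G.ν (G.N P) := fun k =>
    h.links hQ h𝒟 h𝒟c hst hK.C hw hw' (hlknn k) (hlkl k) (hXU k) (hXc k) (hXd k) hF Y (hcc k)
      hε1'pos
  have hsub : {n0 | n0 ∈ G.N P ∧ ∃ c', IsC G Ψ 0 ω ε P' (Y * G.inc n0) c' ∧
      K * ω < ‖c' - c‖} ⊆ Bc ∪ ⋃ k ∈ Finset.range (n + 1), B k := by
    rintro n0 ⟨hn0, c', hc', hlt⟩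
    by_contra hno
    simp only [mem_union, mem_iUnion, Finset.mem_range, not_or, not_exists] at hno
    obtain ⟨hno1, hno2⟩ := hno
    have hn1 : ¬ (ENNReal.ofReal (1 / 4) * G.ν (G.N ρ) <
        G.ν {n | n ∈ G.N ρ ∧ 3 * ω < ‖Wd G Ψ (Y * G.inc n0 * G.inc n) - c‖}) :=
      fun hh => hno1 ⟨hn0, hh⟩
    have hlink : ∀ k ≤ n, ¬ (ENNReal.ofReal (ε1' * (X k).card) * G.ν (G.N ρ) <
        ∑ y ∈ X k, G.ν (G.N ρ \ {e | e * y ∈ Av G 𝒢 Ψ (sh (bump ρ o (lk k) 0) G.C)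
          (cc k (Y * G.inc n0)) ω (Y * G.inc n0)})) :=
      fun k hk hh => hno2 k (by omega) ⟨hn0, hh⟩
    have h00 : IsC G Ψ 0 ω ε (sh (sh ρ G.C) s) (Y * G.inc n0) (cc 0 (Y * G.inc n0)) := by
      have := hcc 0 (Y * G.inc n0)
      rwa [hlk0, bump_zero] at this
    have hd0 := h.const0 hρ hn1 h00
    have hPn : bump ρ o (lk n) 0 = P' := by rw [hlkn]; exact smallW_bump
    have hccn : IsC G Ψ 0 ω ε (sh (sh P' G.C) s) (Y * G.inc n0) (cc n (Y * G.inc n0)) := by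
      have := hcc n (Y * G.inc n0)
      rwa [hPn] at this
    have hdn := h.near hP' hc' hccn
    have hkey : ‖cc n (Y * G.inc n0) - cc 0 (Y * G.inc n0)‖ ≤ max 15 (KL * a) * ω := by
      rcases o with _ | i
      · refine (h.none_loc hQ hρ hrel.hnone.symm (hlknn n) ?_ ?_ (hXU n) h00 hε1'pos ?_
          (hlink n le_rfl)).trans (mul_le_mul_of_nonneg_right (le_max_left _ _) hω.le)
        · have := h.nonneg (hmid n) none
          simp only [sh]; linarith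
        · rw [← Finset.card_pos]
          have := lt_of_lt_of_le (Real.exp_pos _) (hXc n)
          exact_mod_cast this
        · have h1 : (1 : ℝ) ≤ n + 1 := by linarith [(Nat.cast_nonneg n : (0:ℝ) ≤ n)]
          nlinarith
      · have h1 := h.some_loc hQ hLOC le_rfl hω1 ?_ ?_ ?_ hst hK.C hw hw' hlk0 hlkm hlks hlkl
          (fun k _ => hXU k) (fun k _ => hXc k) (fun k _ => hXd k) hF (g := Y * G.inc n0)
          (c := fun k => cc k (Y * G.inc n0)) (fun k _ => hcc k _) hε1'pos hnε (by linarith) hlink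
          n le_rfl
        · refine h1.trans ?_
          rw [← mul_assoc]
          exact mul_le_mul_of_nonneg_right (le_max_right _ _) hω.le
        · have h2 : 2 * (𝒢.n : ℝ) + 1 ≤ Real.exp ω := by
            have h3 := hK.k5.trans hS.ω_ge
            have h4 := Real.add_one_le_exp ω
            linarith
          calc (2 * (𝒢.n : ℝ) + 1) * Real.exp (2 * (7 * ω)) ≤ Real.exp ω * Real.exp (2 * (7 * ω)) :=
                mul_le_mul_of_nonneg_right h2 (Real.exp_pos _).le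
            _ = Real.exp (15 * ω) := by rw [← Real.exp_add]; congr 1; ring
            _ ≤ _ := Real.exp_le_exp.2 (mul_le_mul_of_nonneg_right (by linarith) hω.le)
        · intro r' hr1 hr2
          exact hS.scale hKL (by linarith) hK.k2 hr1 hr2
        · rw [E2_eq, mul_assoc]
          exact hE.e3
    have h4 : ‖c' - c‖ ≤ (6 + max 15 (KL * a)) * ω := by
      calc ‖c' - c‖ = ‖-(cc n (Y * G.inc n0) - c') + (cc n (Y * G.inc n0) -
            cc 0 (Y * G.inc n0)) + (cc 0 (Y * G.inc n0) - c)‖ := by congr 1; abel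
        _ ≤ ‖-(cc n (Y * G.inc n0) - c')‖ + ‖cc n (Y * G.inc n0) - cc 0 (Y * G.inc n0)‖ +
            ‖cc 0 (Y * G.inc n0) - c‖ := (norm_add_le _ _).trans
              (add_le_add (norm_add_le _ _) le_rfl)
        _ ≤ _ := by rw [norm_neg]; linarith
    have h5 : (6 + max 15 (KL * a)) * ω ≤ K * ω := by
      refine mul_le_mul_of_nonneg_right ?_ hω.le
      rcases max_cases 15 (KL * a) with ⟨h6, _⟩ | ⟨h6, _⟩
      · rw [h6]; linarith [hK.k10]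
      · rw [h6]; exact hK.k11
    linarith
  refine (measure_mono hsub).trans ((measure_union_le _ _).trans ?_)
  have h1 : G.ν (⋃ k ∈ Finset.range (n + 1), B k) ≤
      ENNReal.ofReal ((n + 1) * (ε2 G 𝒢 ε s Kn * Real.exp G.M4 / ε1')) * G.ν (G.N P) := by
    refine (measure_biUnion_finset_le _ _).trans ((Finset.sum_le_sum fun k _ => hBk k).trans ?_)
    rw [Finset.sum_const, nsmul_eq_mul, Finset.card_range, ← mul_assoc]
    refine mul_le_mul' ?_ le_rfl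
    rw [ENNReal.ofReal_mul (by positivity)]
    refine mul_le_mul' (le_of_eq ?_) le_rfl
    rw [← ENNReal.ofReal_natCast]
    push_cast
    rfl
  refine (add_le_add hBc h1).trans ?_
  rw [← add_mul, ← ENNReal.ofReal_add (by positivity) (by
    have := ε2_nonneg 𝒢 (s := s) hεnn Kn
    positivity)]
  refine mul_le_mul' (ENNReal.ofReal_le_ofReal ?_) le_rfl
  have h2 : 4 * ε * Real.exp (G.C * (1 + G.C)) ≤ ε1 / 2 := by
    have := hE.e4
    linarith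
  have h3 : ((n : ℝ) + 1) * (ε2 G 𝒢 ε s Kn * Real.exp G.M4 / ε1') ≤ ε1 / 2 := by
    refine le_trans ?_ hE.e5
    rw [E2_eq, hε1']
    have h4 : (n : ℝ) ≤ Nη := by exact_mod_cast hnN
    have h5 : ε * E2 G 𝒢 s Kn * Real.exp G.M4 / (1 / (8 * ((Nη : ℝ) + 1))) =
        ε * E2 G 𝒢 s Kn * Real.exp G.M4 * (8 * (Nη + 1)) := by
      field_simp
    rw [h5]
    have h6 : 0 ≤ ε * E2 G 𝒢 s Kn * Real.exp G.M4 * (8 * (Nη + 1)) := by
      have := E2_nonneg 𝒢 s Kn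
      positivity
    calc ((n : ℝ) + 1) * (ε * E2 G 𝒢 s Kn * Real.exp G.M4 * (8 * (Nη + 1))) ≤
        (Nη + 1) * (ε * E2 G 𝒢 s Kn * Real.exp G.M4 * (8 * (Nη + 1))) :=
          mul_le_mul_of_nonneg_right (by linarith) h6
      _ = _ := by ring
  linarith

end Vale.P188.H532
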