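import Vale.Agent.P188.H532.ConnCP
import Vale.Agent.P188.H532.Stmt

/-!
# P188, route B: T_o, windows and numbers
-/

set_option linter.all false

namespace Vale.P188.H532

open MeasureTheory Set

variable {S E V ι L : Type} [Group S] [Group E] [MeasurableSpace E] [NormedAddCommGroup V]
    [NormedSpace ℝ V] [Fintype ι] [DecidableEq ι] [Fintype L]

/-- the small window of a step -/
def smallW {ι : Type} [DecidableEq ι] (o : Option ι) (P P' : Option ι → ℝ) : Option ι → ℝ :=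
  fun j => if j = o then P o else P' j

variable {G : Geo S E V ι L} {Λ : ℝ} {Ψ : S → S}

theorem smallW_bump {o : Option ι} {P P' : Option ι → ℝ} :
    bump (smallW o P P') o (P' o - P o) 0 = P' := by
  funext j
  rcases j with _ | j
  · by_cases ho : o = none
    · subst ho
      rw [bump_self]; simp [smallW]
    · rw [bump_none ho]; simp [smallW, Ne.symm ho]
  · by_cases ho : o = some j
    · subst ho
      rw [bump_self]; simp [smallW]
    · rw [bump_some ho]; simp [smallW, Ne.symm ho]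

theorem smallW_mid {o : Option ι} {P P' : Option ι → ℝ} {δ x r0 l : ℝ} (hl0 : 0 ≤ l)
    (hl : l ≤ P' o - P o) (hw : Win G δ x r0 P) (hw' : Win G δ x r0 P') :
    Win G δ x r0 (bump (smallW o P P') o l 0) := by
  refine ⟨fun j => ?_, ?_, ?_⟩
  · by_cases ho : o = some j
    · subst ho
      rw [bump_self]
      have h1 := abs_le.1 (hw.ray j)
      have h2 := abs_le.1 (hw'.ray j)
      simp only [smallW, if_true]
      rw [abs_le]
      constructor <;> linarith [h1.1, h1.2, h2.1, h2.2]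
    · rw [bump_some ho]
      simp only [smallW, Ne.symm ho, if_false, sub_zero]
      exact hw'.ray j
  · by_cases ho : o = none
    · subst ho
      rw [bump_self]
      simp only [smallW, if_true]
      linarith [hw.lo]
    · rw [bump_none ho]
      simp only [smallW, Ne.symm ho, if_false]
      exact hw'.lo
  · by_cases ho : o = none
    · subst ho
      rw [bump_self]
      simp only [smallW, if_true]
      linarith [hw'.hi]
    · rw [bump_none ho]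
      simp only [smallW, Ne.symm ho, if_false]
      exact hw'.hi

theorem Win.sh {δ δ' x r0 t : ℝ} {ρ : Option ι → ℝ} (h : Win G δ x r0 ρ) (ht : 0 ≤ t)
    (h1 : δ * x + t ≤ δ' * x) (h2 : δ * r0 + t ≤ δ' * r0) : Win G δ' x r0 (sh ρ t) := by
  refine ⟨fun j => ?_, ?_, ?_⟩
  · have h3 := abs_le.1 (h.ray j)
    show |ρ (some j) + t - x * G.p j| ≤ δ' * x
    rw [abs_le]
    constructor <;> linarith [h3.1, h3.2]
  · show r0 ≤ ρ none + t
    linarith [h.lo]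
  · show ρ none + t ≤ (1 + δ') * r0
    linarith [h.hi]

theorem smallW_rel {K δ x r0 : ℝ} {o : Option ι} {P P' : Option ι → ℝ} (h : Step K o P P')
    (hK : G.C ≤ K) (hw : Win G δ x r0 P) (hw' : Win G δ x r0 P') (hr0 : 0 ≤ r0)
    (hx : 0 ≤ x) (hδ : δ ≤ G.δ0) : Rel2 G o P (smallW o P P') (P' o - P o) := by
  have hnn : ∀ {Q : Option ι → ℝ}, Win G δ x r0 Q → ∀ j, 0 ≤ Q j := by
    rintro Q hQ (_ | j)
    · exact hr0.trans hQ.lo
    · have h1 := (abs_le.1 (hQ.ray j)).1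
      have h2 := G.p_lb j
      have h3 := G.c1_pos
      have h4 : δ * x ≤ G.δ0 * x := mul_le_mul_of_nonneg_right hδ hx
      have h5 : x * (G.c1 + G.δ0) ≤ x * G.p j := mul_le_mul_of_nonneg_left h2 hx
      have h6 : 0 ≤ x * G.c1 := mul_nonneg hx h3.le
      linarith
  refine ⟨by simp [smallW], ?_, fun j hj => ?_, fun j => ?_, by linarith [h.self]⟩
  · by_cases ho : o = none
    · subst ho; simp [smallW]
    · simp only [smallW, Ne.symm ho, if_false]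
      exact h.hnone ho
  · have h1 := h.le j hj
    simp only [smallW, Ne.symm hj, if_false]
    have h2 : G.C * (P' o - P o + 1) ≤ K * (P' o - P o + 1) :=
      mul_le_mul_of_nonneg_right hK (by linarith [h.self])
    linarith
  · unfold smallW
    split
    · exact hnn hw _
    · exact hnn hw' _

/-- numbers of steps on the lines -/
theorem exists_qKn {C Λ βm η x : ℝ} (hC : 1 ≤ C) (hΛ : 1 ≤ Λ) (hβ : 0 < βm) (hη : 0 < η)
    (hx : 8 * C ^ 2 * Λ ≤ η * x) : ∃ q : ℕ, 0 < q ∧ 2 * C * Λ * (q * C + 1) ≤ η * x ∧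
      2 * C * x ≤ ((⌈16 * C ^ 3 * Λ / (βm * η)⌉₊ * q : ℕ) : ℝ) * βm := by
  have h0 : 0 < C := by linarith
  have h1 : 0 < Λ := by linarith
  have hq1 : η * x / (4 * C ^ 2 * Λ) < ⌊η * x / (4 * C ^ 2 * Λ)⌋₊ + 1 := Nat.lt_floor_add_one _
  have hpos : 0 ≤ η * x / (4 * C ^ 2 * Λ) := div_nonneg (by nlinarith [sq_nonneg C]) (by positivity)
  have hq2 : (⌊η * x / (4 * C ^ 2 * Λ)⌋₊ : ℝ) ≤ η * x / (4 * C ^ 2 * Λ) := Nat.floor_le hpos
  set q : ℕ := ⌊η * x / (4 * C ^ 2 * Λ)⌋₊ with hq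
  rw [div_lt_iff₀ (by positivity)] at hq1
  rw [le_div_iff₀ (by positivity)] at hq2
  have hq3 : η * x ≤ q * (8 * C ^ 2 * Λ) := by nlinarith
  have hq4 : 0 < q := by
    rcases Nat.eq_zero_or_pos q with h | h
    · rw [h] at hq1
      have : 0 < C ^ 2 * Λ := by positivity
      push_cast at hq1
      nlinarith
    · exact h
  refine ⟨q, hq4, ?_, ?_⟩
  · have h2 : 2 * C * Λ * (q * C + 1) = (q * (4 * C ^ 2 * Λ)) / 2 + 2 * C * Λ := by ring
    have h3 : C * Λ ≤ C ^ 2 * Λ := by nlinarith [mul_pos h0 h1]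
    rw [h2]
    linarith
  · have h2 := Nat.le_ceil (16 * C ^ 3 * Λ / (βm * η))
    rw [div_le_iff₀ (by positivity)] at h2
    push_cast
    set N : ℝ := (⌈16 * C ^ 3 * Λ / (βm * η)⌉₊ : ℝ) with hN
    have hN0 : 0 ≤ N := Nat.cast_nonneg _
    -- `η x * (2 C) ≤ η * (N q βm)`
    have h3 : η * (2 * C * x) ≤ η * (N * q * βm) := by
      calc η * (2 * C * x) = 2 * C * (η * x) := by ring
        _ ≤ 2 * C * (q * (8 * C ^ 2 * Λ)) := mul_le_mul_of_nonneg_left hq3 (by positivity)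
        _ = q * (16 * C ^ 3 * Λ) := by ring
        _ ≤ q * (N * (βm * η)) := mul_le_mul_of_nonneg_left h2 (Nat.cast_nonneg _)
        _ = _ := by ring
    exact le_of_mul_le_mul_left h3 hη

/-- the data of the step: all the numbers are compatible -/
structure ToD (G : Geo S E V ι L) (𝒢 : ConnData G) (Λ βm Ks δ x r0 ω ε s : ℝ) (q Kn : ℕ) :
    Prop where
  βpos : 0 < βm
  βle : ∀ i, βm ≤ G.β i
  slk : SlK G Λ βm Ks
  num : NumD G 𝒢 Λ ω ε s q Kn
  kn : 2 * G.C * x ≤ (Kn * q : ℕ) * βm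
  sc : Sc G Ks x (2 * (7 * ω)) (2 * (r0 + 1))
  scr : ∀ r' : ℝ, 0 ≤ r' → r' ≤ 2 * (r0 + 1) → Sc G Ks x (2 * (7 * ω)) r'
  hr0 : G.C + s ≤ (G.δ0 / (4 * G.C) - δ) * r0
  hr0' : 0 ≤ r0
  hr0C : G.C ≤ r0
  hx : G.C + s ≤ (G.δ0 / (4 * G.C) - δ) * x
  hx' : 2 * (r0 + 1) + 3 * G.C ≤ G.δ0 / 4 * x
  hx1 : G.C * (2 * δ * x + 1) ≤ G.c1 * x
  hδ : δ ≤ G.δ0 / 8
  hδ0 : 0 ≤ δ
  hδ1 : δ ≤ 1
  ww : 2 * G.C * Λ * (G.C + 1) ≤ 7 * ω
  n0 : ε * (Real.exp (G.C * (1 + (G.C + s))) + 1) ≤ 1 / 4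


variable {𝒢 : ConnData G} {βm Ks δ x r0 ω ε s : ℝ} {q Kn : ℕ}

theorem ToD.C_s (h : ToD G 𝒢 Λ βm Ks δ x r0 ω ε s q Kn) : 0 ≤ G.C + s := by
  linarith [G.C_pos, h.num.s2]

theorem ToD.ω_pos (h : ToD G 𝒢 Λ βm Ks δ x r0 ω ε s q Kn) : 0 < ω := h.num.ω_pos

theorem ToD.x_pos (h : ToD G 𝒢 Λ βm Ks δ x r0 ω ε s q Kn) : 0 < x := h.sc.x_pos

theorem ToD.nn (h : ToD G 𝒢 Λ βm Ks δ x r0 ω ε s q Kn) {w : Option ι → ℝ} (hw : Win G δ x r0 w)
    (j : ι) : G.c1 * x ≤ w (some j) := by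
  have h1 := (abs_le.1 (hw.ray j)).1
  have h2 := G.p_lb j
  have hx := h.x_pos
  have h4 : δ * x ≤ G.δ0 * x := mul_le_mul_of_nonneg_right (by linarith [h.hδ, G.δ0_pos]) hx.le
  have h5 : x * (G.c1 + G.δ0) ≤ x * G.p j := mul_le_mul_of_nonneg_left h2 hx.le
  linarith

theorem ToD.nonneg (h : ToD G 𝒢 Λ βm Ks δ x r0 ω ε s q Kn) {w : Option ι → ℝ}
    (hw : Win G δ x r0 w) : ∀ j, 0 ≤ w j := by
  rintro (_ | j)
  · exact h.hr0'.trans hw.lo
  · exact (mul_nonneg G.c1_pos.le h.x_pos.le).trans (h.nn hw j)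

theorem ToD.win (h : ToD G 𝒢 Λ βm Ks δ x r0 ω ε s q Kn) {w : Option ι → ℝ}
    (hw : Win G δ x r0 w) : Win G (G.δ0 / (4 * G.C)) x r0 (sh (sh w G.C) s) := by
  rw [sh_sh]
  exact hw.sh h.C_s (by linarith [h.hx]) (by linarith [h.hr0])

theorem ToD.winC (h : ToD G 𝒢 Λ βm Ks δ x r0 ω ε s q Kn) {w : Option ι → ℝ}
    (hw : Win G δ x r0 w) : Win G (G.δ0 / (4 * G.C)) x r0 (sh w G.C) := by
  have h1 := h.num.s2
  have hC := G.C_pos
  exact hw.sh hC.le (by linarith [h.hx]) (by linarith [h.hr0])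

theorem ToD.winC' (h : ToD G 𝒢 Λ βm Ks δ x r0 ω ε s q Kn) {w : Option ι → ℝ}
    (hw : Win G δ x r0 w) (j : ι) : |sh w G.C (some j) - x * G.p j| ≤ G.δ0 * x := by
  refine ((h.winC hw).ray j).trans (mul_le_mul_of_nonneg_right ?_ h.x_pos.le)
  rw [div_le_iff₀ (by linarith [G.C_pos])]
  nlinarith [G.one_le_C, G.δ0_pos]

theorem ToD.hi (h : ToD G 𝒢 Λ βm Ks δ x r0 ω ε s q Kn) {w : Option ι → ℝ}
    (hw : Win G δ x r0 w) : w none ≤ 2 * r0 := by
  have := hw.hi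
  have h1 := h.hδ1
  have h2 := h.hr0'
  nlinarith

/-- length of the steps -/
theorem ToD.lam (h : ToD G 𝒢 Λ βm Ks δ x r0 ω ε s q Kn) {o : Option ι} {P P' : Option ι → ℝ}
    (hw : Win G δ x r0 P) (hw' : Win G δ x r0 P') : P' o - P o ≤ 2 * δ * x := by
  have hx := h.x_pos
  have h1 := h.hδ0
  rcases o with _ | j
  · have h2 := hw.lo
    have h3 := hw'.hi
    have h4 : r0 ≤ x := by
      have h5 := h.hx'
      have h6 := G.δ0_le
      have h7 := G.C_pos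
      have h8 := h.hr0'
      nlinarith
    nlinarith [mul_nonneg h1 h.hr0', mul_nonneg h1 hx.le]
  · have h2 := abs_le.1 (hw.ray j)
    have h3 := abs_le.1 (hw'.ray j)
    linarith [h2.1, h2.2, h3.1, h3.2]

end Vale.P188.H532
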