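import Vale.Agent.P188.H532.To1
import Vale.Agent.P188.H428.Loc

/-!
# P188, route B: T_o, one location
-/

set_option linter.all false

namespace Vale.P188.H532

open MeasureTheory Set

variable {S E V ι L : Type} [Group S] [Group E] [MeasurableSpace E] [NormedAddCommGroup V]
    [NormedSpace ℝ V] [Fintype ι] [DecidableEq ι] [Fintype L]

variable {G : Geo S E V ι L} {Λ : ℝ} {Ψ : S → S}

theorem bump_zero (ρ : Option ι → ℝ) (o : Option ι) : bump ρ o 0 0 = ρ := by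
  funext j
  rcases j with _ | j
  · by_cases ho : o = none
    · subst ho; rw [bump_self, add_zero]
    · rw [bump_none ho]
  · by_cases ho : o = some j
    · subst ho; rw [bump_self, add_zero]
    · rw [bump_some ho, sub_zero]

/-- LOC with `1 ≤ K` -/
theorem loc1 (G : Geo S E V ι L) (Λ C' : ℝ) : ∃ K δ1 : ℝ, 1 ≤ K ∧ 0 < δ1 ∧ δ1 ≤ 1 ∧
    ∀ (Ψ : S → S) (i : ι) (ρ : Option ι → ℝ)
    (x ω ε1 : ℝ) (n : ℕ) (lk : ℕ → ℝ) (c : ℕ → V) (A : ℕ → Set E) (X : ℕ → Finset E) (g : S),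
    Sc G K x ω (ρ none) → LocData G Λ Ψ i ρ x ω C' ε1 n lk c A X g → lk n ≤ δ1 * x →
    (n + 1) * ε1 ≤ 1 / 8 → 0 ≤ ε1 → ∀ k ≤ n, ‖c k - c 0‖ ≤ K * ω := by
  classical
  choose K δ hK hδ hδ1 h using fun i => Agent.P188.H428.loc_i G Λ C' i
  rcases isEmpty_or_nonempty ι with hι | hι
  · exact ⟨1, 1, le_rfl, one_pos, le_rfl, fun Ψ i => (hι.false i).elim⟩
  obtain ⟨i1, _, hi1⟩ := Finset.exists_max_image Finset.univ K Finset.univ_nonempty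
  obtain ⟨i2, _, hi2⟩ := Finset.exists_min_image Finset.univ δ Finset.univ_nonempty
  refine ⟨K i1, δ i2, hK i1, hδ i2, hδ1 i2, ?_⟩
  intro Ψ i ρ x ω ε1 n lk c A X g hs hd hlx hn hε k hk
  have hKi : K i ≤ K i1 := hi1 i (Finset.mem_univ _)
  have hx0 : 0 ≤ x := hs.x_pos.le
  refine (h i Ψ ρ x ω ε1 n lk c A X g (hs.mono (hK i) hKi) hd (hlx.trans
    (mul_le_mul_of_nonneg_right (hi2 i (Finset.mem_univ _)) hx0)) hn hε k hk).trans ?_
  exact mul_le_mul_of_nonneg_right hKi hs.ω_pos.le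

section

variable {𝒢 : ConnData G} {βm Ks δ x r0 ω ε s : ℝ} {q Kn : ℕ}

/-- the constant of the small window at `Y n0` is the constant of `P` at `Y` -/
theorem ToD.const0 (h : ToD G 𝒢 Λ βm Ks δ x r0 ω ε s q Kn) {ρ : Option ι → ℝ}
    (hρ : ∀ j, 0 ≤ ρ j) {Y : S} {n0 : E} {c c0 : V} (hn : ¬ (ENNReal.ofReal (1 / 4) * G.ν (G.N ρ) <
      G.ν {n | n ∈ G.N ρ ∧ 3 * ω < ‖Wd G Ψ (Y * G.inc n0 * G.inc n) - c‖}))
    (h0 : IsC G Ψ 0 ω ε (sh (sh ρ G.C) s) (Y * G.inc n0) c0) : ‖c0 - c‖ ≤ 4 * ω := by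
  have hCs := h.C_s
  have hB2 : G.ν (G.N ρ ∩ {n | ω < ‖Wd G Ψ (Y * G.inc n0 * G.inc n) - c0‖}) ≤
      ENNReal.ofReal (1 / 4) * G.ν (G.N ρ) := by
    refine (measure_mono ?_).trans ((h0.base le_rfl).trans ((mul_le_mul' le_rfl
      ((measure_mono (G.N_mono _ (sh ρ (G.C + s)) (fun j => by rw [sh_sh]))).trans
        (G.ν_dbl ρ hρ _ hCs))).trans ?_))
    · rintro n ⟨h1, h2⟩
      refine ⟨G.N_mono _ _ (fun j => ?_) h1, h2⟩
      rw [sh_sh]; simp only [sh]; linarith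
    · rw [← mul_assoc, ← ENNReal.ofReal_mul h.num.ε_nonneg]
      refine mul_le_mul' (ENNReal.ofReal_le_ofReal ?_) le_rfl
      have := h.n0
      have h3 := h.num.ε_nonneg
      nlinarith
  have hlt : ENNReal.ofReal (1 / 4) * G.ν (G.N ρ) + ENNReal.ofReal (1 / 4) * G.ν (G.N ρ) <
      G.ν (G.N ρ) := by
    rw [← add_mul, ← ENNReal.ofReal_add (by norm_num) (by norm_num)]
    exact ofReal_mul_lt (by norm_num) (G.ν_N_pos ρ hρ).ne' (G.ν_N_top ρ).ne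
  obtain ⟨n, hn1, hn2, hn3⟩ : ∃ n ∈ G.N ρ, n ∉ {n | 3 * ω < ‖Wd G Ψ (Y * G.inc n0 * G.inc n) - c‖} ∧
      n ∉ {n | ω < ‖Wd G Ψ (Y * G.inc n0 * G.inc n) - c0‖} :=
    links_exists_good ((add_le_add (not_lt.1 hn) hB2).trans_lt hlt)
  simp only [mem_setOf_eq, not_lt] at hn2 hn3
  calc ‖c0 - c‖ = ‖-(Wd G Ψ (Y * G.inc n0 * G.inc n) - c0) +
      (Wd G Ψ (Y * G.inc n0 * G.inc n) - c)‖ := by congr 1; abel
    _ ≤ _ := (norm_add_le _ _).trans (by rw [norm_neg]; linarith)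

/-- comparison of the constants of `w` and `sh (sh w C) s` at the same point -/
theorem ToD.near (h : ToD G 𝒢 Λ βm Ks δ x r0 ω ε s q Kn) {w : Option ι → ℝ}
    (hw : ∀ j, 0 ≤ w j) {g : S} {c c' : V} (hc : IsC G Ψ 0 ω ε w g c)
    (hc' : IsC G Ψ 0 ω ε (sh (sh w G.C) s) g c') : ‖c' - c‖ ≤ 2 * ω := by
  have hCs := h.C_s
  refine hc'.near' hc le_rfl le_rfl h.num.ε_nonneg hCs hw (fun j => ?_) (fun j => ?_)
    (lt_of_le_of_lt h.n0 (by norm_num))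
  · rw [sh_sh]; simp only [sh]; linarith
  · rw [sh_sh]

/-- the links of the level `l`, for most `n0` -/
theorem ToD.links (h : ToD G 𝒢 Λ βm Ks δ x r0 ω ε s q Kn) (hQ : QIe G Λ Ψ) {𝒟 : Set V}
    (h𝒟 : Dense 𝒟) (h𝒟c : 𝒟.Countable) {K : ℝ} {o : Option ι} {P P' : Option ι → ℝ}
    (hst : Step K o P P') (hK : G.C ≤ K) (hw : Win G δ x r0 P) (hw' : Win G δ x r0 P') {l : ℝ}
    (hl0 : 0 ≤ l) (hl : l ≤ P' o - P o) {X : Finset E}
    (hXU : ∀ y ∈ X, y ∈ G.U o (P o + l) (P none))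
    (hXc : Real.exp (G.H o P l - G.C * (1 + G.C)) ≤ X.card)
    (hXd : ∀ y ∈ X, ∀ y' ∈ X, y ≠ y' → ∀ n ∈ G.N (sh P G.C), ∀ n' ∈ G.N (sh P G.C),
      n * y ≠ n' * y') (hF : FlatW G Ψ 0 x r0 ω ε) (Y : S) {cc : S → V}
    (hcc : ∀ g, IsC G Ψ 0 ω ε (sh (sh (bump (smallW o P P') o l 0) G.C) s) g (cc g)) {ε1 : ℝ}
    (hε1 : 0 < ε1) :
    G.ν {n0 | n0 ∈ G.N P ∧ ENNReal.ofReal (ε1 * X.card) * G.ν (G.N (smallW o P P')) <
      ∑ y ∈ X, G.ν (G.N (smallW o P P') \ {e | e * y ∈ Av G 𝒢 Ψ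
        (sh (bump (smallW o P P') o l 0) G.C) (cc (Y * G.inc n0)) ω (Y * G.inc n0)})} ≤
      ENNReal.ofReal (ε2 G 𝒢 ε s Kn * Real.exp G.M4 / ε1) * G.ν (G.N P) := by
  have hx := h.x_pos
  have hC := G.C_pos
  have hδ := h.hδ
  have hδ0 := h.hδ0
  have hx' := h.hx'
  have hr0 := h.hr0'
  have hrel := (smallW_rel hst hK hw hw' h.hr0' hx.le (by linarith [G.δ0_pos])).mono hl0 hl
  have hlam := h.lam (o := o) hw hw'
  have hmid := smallW_mid hl0 hl hw hw'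
  have hδx : δ * x ≤ G.δ0 / 8 * x := mul_le_mul_of_nonneg_right hδ hx.le
  have hδx0 : 0 ≤ G.δ0 / 8 * x := mul_nonneg (by linarith [G.δ0_pos]) hx.le
  refine links_one (x := x) hQ 𝒢 h𝒟 h𝒟c h.num hrel (h.nonneg hw) (fun j => ?_) ?_ ?_ (fun j => ?_) hXU hXc
    hXd (fun j => ?_) (fun g => hF _ (h.win hmid) g) Y hcc hε1
  · have h1 := abs_le.1 (hw.ray j)
    rw [abs_le]
    constructor <;> linarith [h1.1, h1.2]
  · linarith [h.hi hw]
  · linarith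
  · have h1 := h.nn hw j
    have h2 := h.hx1
    have h3 : G.C * (l + 1) ≤ G.C * (2 * δ * x + 1) := mul_le_mul_of_nonneg_left (by linarith) hC.le
    linarith
  · have h1 := (abs_le.1 (hmid.ray j)).2
    have h2 := G.p_ub j
    have h3 : x * G.p j ≤ x * (G.C - G.δ0) := mul_le_mul_of_nonneg_left (by linarith) hx.le
    show bump (smallW o P P') o l 0 (some j) + G.C ≤ _
    have h4 : bump (smallW o P P') o l 0 (some j) + G.C ≤ 2 * G.C * x := by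
      have h5 : 0 ≤ G.C * x := by positivity
      nlinarith
    refine h4.trans (h.kn.trans (mul_le_mul_of_nonneg_left (h.βle j) (Nat.cast_nonneg _)))

end

end Vale.P188.H532
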