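import Vale.Agent.P188.H532.To2

/-!
# P188, route B: T_o, one location: neutral step, ray step
-/

set_option linter.all false

namespace Vale.P188.H532

open MeasureTheory Set

variable {S E V ι L : Type} [Group S] [Group E] [MeasurableSpace E] [NormedAddCommGroup V]
    [NormedSpace ℝ V] [Fintype ι] [DecidableEq ι] [Fintype L]

variable {G : Geo S E V ι L} {Λ : ℝ} {Ψ : S → S}

section

variable {𝒢 : ConnData G} {βm Ks δ x r0 ω ε s : ℝ} {q Kn : ℕ}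

/-- most points of the small window have the constant of `sh (sh ρ C) s` -/
theorem ToD.base_small (h : ToD G 𝒢 Λ βm Ks δ x r0 ω ε s q Kn) {ρ : Option ι → ℝ}
    (hρ : ∀ j, 0 ≤ ρ j) {g : S} {c0 : V} (h0 : IsC G Ψ 0 ω ε (sh (sh ρ G.C) s) g c0) :
    G.ν (G.N ρ ∩ {n | ω < ‖Wd G Ψ (g * G.inc n) - c0‖}) ≤
      ENNReal.ofReal (1 / 4) * G.ν (G.N ρ) := by
  have hCs := h.C_s
  refine (measure_mono ?_).trans ((h0.base le_rfl).trans ((mul_le_mul' le_rfl
    ((measure_mono (G.N_mono _ (sh ρ (G.C + s)) (fun j => by rw [sh_sh]))).trans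
      (G.ν_dbl ρ hρ _ hCs))).trans ?_))
  · rintro n ⟨h1, h2⟩
    refine ⟨G.N_mono _ _ (fun j => ?_) h1, h2⟩
    rw [sh_sh]; simp only [sh]; linarith
  · rw [← mul_assoc, ← ENNReal.ofReal_mul h.num.ε_nonneg]
    refine mul_le_mul' (ENNReal.ofReal_le_ofReal ?_) le_rfl
    have := h.n0
    have h3 := h.num.ε_nonneg
    nlinarith

/-- **neutral step**, at one location -/
theorem ToD.none_loc (h : ToD G 𝒢 Λ βm Ks δ x r0 ω ε s q Kn) (hQ : QIe G Λ Ψ)
    {ρ : Option ι → ℝ} (hρ : ∀ j, 0 ≤ ρ j) {P : Option ι → ℝ} (hP : P none = ρ none) {l : ℝ}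
    (hl : 0 ≤ l) (hρ' : 0 ≤ sh (bump ρ none l 0) G.C none) {X : Finset E} (hX : X.Nonempty)
    (hXU : ∀ y ∈ X, y ∈ G.U none (P none + l) (P none)) {g : S} {c0 c1 : V}
    (h0 : IsC G Ψ 0 ω ε (sh (sh ρ G.C) s) g c0) {ε1 : ℝ} (hε1 : 0 < ε1) (hε18 : ε1 ≤ 1 / 8)
    (hlink : ¬ (ENNReal.ofReal (ε1 * X.card) * G.ν (G.N ρ) <
      ∑ y ∈ X, G.ν (G.N ρ \ {e | e * y ∈ Av G 𝒢 Ψ (sh (bump ρ none l 0) G.C) c1 ω g}))) :
    ‖c1 - c0‖ ≤ 15 * ω := by
  have hC := G.C_pos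
  obtain ⟨y, hy, hy2⟩ : ∃ y ∈ X, G.ν (G.N ρ \ {e | e * y ∈ Av G 𝒢 Ψ (sh (bump ρ none l 0) G.C) c1
      ω g}) ≤ ENNReal.ofReal ε1 * G.ν (G.N ρ) := by
    by_contra hno
    push Not at hno
    refine hlink ?_
    have h1 := ENNReal.sum_lt_sum_of_nonempty hX hno
    rw [Finset.sum_const, nsmul_eq_mul] at h1
    refine lt_of_le_of_lt (le_of_eq ?_) h1
    rw [← mul_assoc, mul_comm ε1, ENNReal.ofReal_mul (Nat.cast_nonneg _), ENNReal.ofReal_natCast]
  have hB1 : G.ν (G.N ρ ∩ {e | e * y ∉ Av G 𝒢 Ψ (sh (bump ρ none l 0) G.C) c1 ω g}) ≤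
      ENNReal.ofReal (1 / 8) * G.ν (G.N ρ) :=
    hy2.trans (mul_le_mul' (ENNReal.ofReal_le_ofReal hε18) le_rfl)
  have hB2 := h.base_small hρ h0
  have hlt : ENNReal.ofReal (1 / 8) * G.ν (G.N ρ) + ENNReal.ofReal (1 / 4) * G.ν (G.N ρ) <
      G.ν (G.N ρ) := by
    rw [← add_mul, ← ENNReal.ofReal_add (by norm_num) (by norm_num)]
    exact ofReal_mul_lt (by norm_num) (G.ν_N_pos ρ hρ).ne' (G.ν_N_top ρ).ne
  obtain ⟨e, he, he1, he2⟩ := links_exists_good ((add_le_add hB1 hB2).trans_lt hlt)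
  simp only [mem_setOf_eq, not_not, not_lt] at he1 he2
  have h1 := TS_typ hQ hρ' h.ww (𝒢.sub _ _ he1.1)
  have h2 : y⁻¹ ∈ G.Y0 (sh (bump ρ none l 0) G.C none) := by
    refine G.Y_mono (P none + l) _ ?_ (G.Y_inv _ y (G.Y_U (P none + l) (P none) ?_ (hXU y hy)))
    · show _ ≤ bump ρ none l 0 none + G.C
      rw [bump_self, hP]; linarith
    · rw [hP]; linarith [hρ none]
  have h3 := h1.neut _ h2
  have h4 : g * G.inc (e * y) * G.inc y⁻¹ = g * G.inc e := by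
    rw [map_mul, map_inv]; group
  rw [h4] at h3
  calc ‖c1 - c0‖ = ‖-(Wd G Ψ (g * G.inc e) - c1) + (Wd G Ψ (g * G.inc e) - c0)‖ := by
        congr 1; abel
    _ ≤ _ := (norm_add_le _ _).trans (by rw [norm_neg]; linarith)

/-- **ray step**, at one location -/
theorem ToD.some_loc (h : ToD G 𝒢 Λ βm Ks δ x r0 ω ε s q Kn) (hQ : QIe G Λ Ψ) {KL δL a : ℝ}
    (hLOC : ∀ (Ψ : S → S) (i : ι) (ρ : Option ι → ℝ)
    (x ω ε1 : ℝ) (n : ℕ) (lk : ℕ → ℝ) (c : ℕ → V) (A : ℕ → Set E) (X : ℕ → Finset E) (g : S),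
    Sc G KL x ω (ρ none) → LocData G Λ Ψ i ρ x ω (G.C + G.C * (1 + G.C)) ε1 n lk c A X g →
    lk n ≤ δL * x → (n + 1) * ε1 ≤ 1 / 8 → 0 ≤ ε1 → ∀ k ≤ n, ‖c k - c 0‖ ≤ KL * ω)
    (ha : 14 * Ks + G.C + 7 ≤ a) (hω1 : 1 ≤ ω)
    (hexp : (2 * 𝒢.n + 1) * Real.exp (2 * (7 * ω)) ≤ Real.exp (a * ω))
    (hScL : ∀ r' : ℝ, 0 ≤ r' → r' ≤ 2 * (r0 + 1) → Sc G KL x (a * ω) r')
    (hdens : ε2 G 𝒢 ε s Kn * Real.exp (G.C * (1 + G.C)) ≤ 1 / 8)
    {K : ℝ} {i : ι} {P P' : Option ι → ℝ} (hst : Step K (some i) P P') (hK : G.C ≤ K)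
    (hw : Win G δ x r0 P) (hw' : Win G δ x r0 P') {n : ℕ} {lk : ℕ → ℝ} (hlk0 : lk 0 = 0)
    (hlkm : Monotone lk) (hlks : ∀ k, lk (k + 1) ≤ lk k + a * ω)
    (hlkl : ∀ k, lk k ≤ P' (some i) - P (some i)) {X : ℕ → Finset E}
    (hXU : ∀ k ≤ n, ∀ y ∈ X k, y ∈ G.U (some i) (P (some i) + lk k) (P none))
    (hXc : ∀ k ≤ n, Real.exp (G.H (some i) P (lk k) - G.C * (1 + G.C)) ≤ (X k).card)
    (hXd : ∀ k ≤ n, ∀ y ∈ X k, ∀ y' ∈ X k, y ≠ y' → ∀ n ∈ G.N (sh P G.C),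
      ∀ n' ∈ G.N (sh P G.C), n * y ≠ n' * y') (hF : FlatW G Ψ 0 x r0 ω ε) {g : S} {c : ℕ → V}
    (hc : ∀ k ≤ n, IsC G Ψ 0 ω ε (sh (sh (bump (smallW (some i) P P') (some i) (lk k) 0) G.C) s) g
      (c k)) {ε1 : ℝ} (hε1 : 0 < ε1) (hnε : (n + 1) * ε1 ≤ 1 / 8) (hδL : 2 * δ ≤ δL)
    (hlink : ∀ k ≤ n, ¬ (ENNReal.ofReal (ε1 * (X k).card) * G.ν (G.N (smallW (some i) P P')) <
      ∑ y ∈ X k, G.ν (G.N (smallW (some i) P P') \ {e | e * y ∈ Av G 𝒢 Ψ
        (sh (bump (smallW (some i) P P') (some i) (lk k) 0) G.C) (c k) ω g}))) :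
    ∀ k ≤ n, ‖c k - c 0‖ ≤ KL * (a * ω) := by
  have hx := h.x_pos
  have hC := G.C_pos
  have hδ := h.hδ
  have hδ0 := h.hδ0
  have hω := h.ω_pos
  have hlk : ∀ k, 0 ≤ lk k := fun k => hlk0 ▸ hlkm (Nat.zero_le k)
  set ρ := smallW (some i) P P' with hρdef
  have hrel := smallW_rel hst hK hw hw' h.hr0' hx.le (by linarith [G.δ0_pos])
  have hmid : ∀ k, Win G δ x r0 (bump ρ (some i) (lk k) 0) := fun k =>
    smallW_mid (hlk k) (hlkl k) hw hw'
  have hρW : Win G δ x r0 ρ := by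
    have := hmid 0
    rwa [hlk0, bump_zero] at this
  have hρ := h.nonneg hρW
  have hlam := h.lam (o := some i) hw hw'
  have hKs : 1 ≤ Ks := h.slk.one
  have ha0 : 0 ≤ a := by linarith
  refine hLOC Ψ i ρ x (a * ω) ε1 n lk c
    (fun k => Av G 𝒢 Ψ (sh (bump ρ (some i) (lk k) 0) G.C) (c k) ω g) X g
    (hScL _ (hρ none) ?_) ?_ ?_ hnε hε1.le
  · linarith [h.hi hρW, h.hr0']
  · have hP0 := h.hi hw
    have hx' := h.hx'
    have hr0' := h.hr0'
    refine ⟨hQ, fun j => ?_, hlk0, hlkm, hlks, fun k => Av_meas hQ 𝒢 _ _ _ _, ?_, ?_, ?_, ?_, ?_,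
      ?_, ?_⟩
    · refine (hρW.ray j).trans (mul_le_mul_of_nonneg_right ?_ hx.le)
      linarith [G.δ0_pos]
    · intro k hk e he j m hm
      have h1 := (𝒢.sub _ _ he.1).2.1 j m (by
        show _ ≤ bump ρ (some i) (lk k) 0 (some j) + G.C + G.β j
        have h1 : G.β j = G.b j (G.θ (G.t j)) := rfl
        rw [h1]
        linarith)
      refine h1.trans (mul_le_mul_of_nonneg_right ?_ hω.le)
      linarith
    · intro k hk e he e' he'
      have h2 : sh (bump ρ (some i) (lk k) 0) G.C none ≤ 2 * (r0 + 1) := by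
        have := (hmid k).hi
        have h3 := h.hr0
        have h4 := h.num.s2
        have h5 := G.δ0_le
        show bump ρ (some i) (lk k) 0 none + G.C ≤ _
        have h6 : G.δ0 / (4 * G.C) ≤ 1 / 4 := by
          rw [div_le_div_iff₀ (by positivity) (by norm_num)]
          nlinarith [G.one_le_C]
        have h7 := mul_le_mul_of_nonneg_right h6 hr0'
        linarith
      have h3 := av_cp hQ 𝒢 h.βpos h.βle h.slk (x := x) (ω := ω)
        (h.scr _ ((h.nonneg (hmid k) none).trans (by simp only [sh]; linarith)) h2)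
        (h.winC' (hmid k)) h.ww he he'
      refine h3.mono le_rfl (fun j => ?_) hexp
      show _ + (bump ρ (some i) (lk k) 0 (some j) + G.C) + _ ≤ _
      nlinarith
    · have h1 := Av_dens hQ 𝒢 h.num (ρ := ρ) (ρ' := sh (bump ρ (some i) (lk 0) 0) G.C) (g := g)
        (c := c 0) (s' := G.C) hρ (fun j => by rw [hlk0, bump_zero]; simp only [sh]; linarith) hC.le
        (fun j => by rw [hlk0, bump_zero]) (fun j => ?_) (hc 0 (Nat.zero_le n)) ?_
      · exact h1.trans (mul_le_mul' (ENNReal.ofReal_le_ofReal hdens) le_rfl)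
      · have h1 := (abs_le.1 ((hmid 0).ray j)).2
        have h2 := G.p_ub j
        have h3 : x * G.p j ≤ x * (G.C - G.δ0) := mul_le_mul_of_nonneg_left (by linarith) hx.le
        have hδx : δ * x ≤ G.δ0 / 8 * x := mul_le_mul_of_nonneg_right hδ hx.le
        have hδx0 : 0 ≤ G.δ0 / 8 * x := mul_nonneg (by linarith [G.δ0_pos]) hx.le
        show bump ρ (some i) (lk 0) 0 (some j) + G.C ≤ _
        have h4 : bump ρ (some i) (lk 0) 0 (some j) + G.C ≤ 2 * G.C * x := by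
          have h5 : 0 ≤ G.C * x := by positivity
          nlinarith
        refine h4.trans (h.kn.trans (mul_le_mul_of_nonneg_left (h.βle j) (Nat.cast_nonneg _)))
      · exact (hF _ (h.win (hmid 0)) g).2
    · intro k hk y hy
      have h1 : ρ (some i) = P (some i) := hrel.self
      have h2 : ρ none = P none := hrel.hnone
      rw [h1, h2]
      exact hXU k hk y hy
    · intro k hk
      refine le_trans (Real.exp_le_exp.2 ?_) (hXc k hk)
      have hδx : δ * x ≤ G.δ0 / 8 * x := mul_le_mul_of_nonneg_right hδ hx.le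
      have hδx0 : 0 ≤ G.δ0 / 8 * x := mul_nonneg (by linarith [G.δ0_pos]) hx.le
      have h1 := G.H_ext i x ρ P (lk k)
        (fun j => (hρW.ray j).trans (mul_le_mul_of_nonneg_right (by linarith [G.δ0_pos]) hx.le))
        (fun j => (hw.ray j).trans (mul_le_mul_of_nonneg_right (by linarith [G.δ0_pos]) hx.le))
        (hρ none) (by linarith [h.hi hρW]) hrel.hnone.symm hrel.self.symm (hlk k)
        (by linarith [hlkl k])
      linarith
    · intro k hk y hy y' hy' hne e he e' he'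
      have h1 : ∀ j, ρ j ≤ sh P G.C j := fun j => (hrel.le' j).trans (by simp only [sh]; linarith)
      exact hXd k hk y hy y' hy' hne e (G.N_mono _ _ h1 he) e' (G.N_mono _ _ h1 he')
    · exact fun k hk => not_lt.1 (hlink k hk)
  · exact ((hlkl n).trans hlam).trans (mul_le_mul_of_nonneg_right hδL hx.le)

end

end Vale.P188.H532
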